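import Vale.Agent.P228.Deg.Basic

/-!
An elementary integer valued degree of a continuous map at a point.
-/

noncomputable section

open Set Filter MeasureTheory Metric Function Module
open scoped Topology NNReal

namespace Vale.Agent.P228

variable {E : Type*} [NormedAddCommGroup E] [NormedSpace ℝ E] [FiniteDimensional ℝ E]

/-- All preimages of `q` in the closure of `Ω` are nondegenerate. -/
def Regular (f : E → E) (Ω : Set E) (q : E) : Prop :=
  ∀ x ∈ closure Ω, f x = q → jdet f x ≠ 0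

/-- The sum of the signs of the Jacobian over the preimages. -/
def signSum (f : E → E) (Ω : Set E) (q : E) : ℤ :=
  ∑ᶠ x ∈ Ω ∩ f ⁻¹' {q}, (SignType.sign (jdet f x) : ℤ)

omit [FiniteDimensional ℝ E] in
lemma mem_of_notMem_frontier {Ω : Set E} (hΩ : IsOpen Ω) {x : E} (hx : x ∈ closure Ω)
    (h : x ∉ frontier Ω) : x ∈ Ω := by
  by_contra hne
  exact h ⟨hx, by rwa [hΩ.interior_eq]⟩

lemma exists_local_inverse {f : E → E} (hf : ContDiff ℝ 1 f) {x : E} (hx : jdet f x ≠ 0) :
    ∃ e : OpenPartialHomeomorph E E, x ∈ e.source ∧ ∀ z, e z = f z := by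
  let A := LinearMap.equivOfDetNeZero ((fderiv ℝ f x : E →L[ℝ] E) : E →ₗ[ℝ] E) hx
  let A' : E ≃L[ℝ] E := A.toContinuousLinearEquiv
  have h1 : (A' : E →L[ℝ] E) = fderiv ℝ f x := by ext z; rfl
  have h2 : HasStrictFDerivAt f (A' : E →L[ℝ] E) x := by
    rw [h1]
    exact hf.contDiffAt.hasStrictFDerivAt one_ne_zero
  exact ⟨h2.toOpenPartialHomeomorph f, h2.mem_toOpenPartialHomeomorph_source, fun z => rfl⟩

lemma finite_preimage {f : E → E} (hf : ContDiff ℝ 1 f) {Ω : Set E}
    (hΩb : Bornology.IsBounded Ω) {q : E} (hreg : Regular f Ω q) :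
    (closure Ω ∩ f ⁻¹' {q}).Finite := by
  have hc : IsCompact (closure Ω ∩ f ⁻¹' {q}) :=
    hΩb.isCompact_closure.inter_right (isClosed_singleton.preimage hf.continuous)
  refine hc.finite ?_
  rw [isDiscrete_iff_nhdsNE]
  rintro x ⟨hx, hxq⟩
  obtain ⟨e, he, hef⟩ := exists_local_inverse hf (hreg x hx hxq)
  rw [Filter.inf_principal_eq_bot, mem_nhdsWithin]
  refine ⟨e.source, e.open_source, he, ?_⟩
  rintro z ⟨hz, hzx⟩ ⟨-, hzq⟩
  apply hzx
  refine e.injOn hz he ?_
  rw [hef, hef]
  exact (hzq : f z = q).trans (hxq : f x = q).symm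

variable [MeasurableSpace E] [BorelSpace E] (μ : Measure E) [μ.IsAddHaarMeasure]

/-- For a test function supported close enough to the origin, the signed integral counts
preimages with sign. -/
theorem exists_forall_integral_eq_signSum {f : E → E} (hf : ContDiff ℝ 1 f) {Ω : Set E}
    (hΩ : IsOpen Ω) (hΩb : Bornology.IsBounded Ω) {q : E} (hreg : Regular f Ω q)
    (hbd : ∀ x ∈ frontier Ω, f x ≠ q) :
    ∃ ε > 0, ∀ δ ≤ ε, ∀ T : Tester (E := E) δ,
      ∫ x in Ω, jint T.σ (fun z => f z - q) x ∂μ = (signSum f Ω q : ℝ) * ∫ y, T.σ y ∂μ := by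
  classical
  have hfin : (Ω ∩ f ⁻¹' {q}).Finite :=
    (finite_preimage hf hΩb hreg).subset (inter_subset_inter_left _ subset_closure)
  obtain ⟨U, hU, hUd⟩ := hfin.t2_separation
  have hmem : ∀ x, x ∈ hfin.toFinset ↔ x ∈ Ω ∧ f x = q := fun x => by simp
  have hdata : ∀ x ∈ hfin.toFinset, ∃ e : OpenPartialHomeomorph E E, x ∈ e.source ∧
      (∀ z, e z = f z) ∧ e.source ⊆ U x ∩ Ω ∧
      ∀ z ∈ e.source, SignType.sign (jdet f z) = SignType.sign (jdet f x) := by
    intro x hx
    rw [hmem] at hx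
    have hne := hreg x (subset_closure hx.1) hx.2
    obtain ⟨e, he, hef⟩ := exists_local_inverse hf hne
    have hW : {z | SignType.sign (jdet f z) = SignType.sign (jdet f x)} ∈ 𝓝 x := by
      rcases hne.lt_or_gt with h | h
      · filter_upwards [(continuous_jdet hf).continuousAt.preimage_mem_nhds
          (Iio_mem_nhds h)] with z hz
        have hz' : jdet f z < 0 := hz
        simp [sign_neg h, sign_neg hz']
      · filter_upwards [(continuous_jdet hf).continuousAt.preimage_mem_nhds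
          (Ioi_mem_nhds h)] with z hz
        have hz' : 0 < jdet f z := hz
        simp [sign_pos h, sign_pos hz']
    obtain ⟨W, hWs, hWo, hxW⟩ := _root_.mem_nhds_iff.1 hW
    refine ⟨e.restrOpen (U x ∩ Ω ∩ W) (((hU x).2.inter hΩ).inter hWo), ?_, ?_, ?_, ?_⟩
    · exact ⟨he, ⟨(hU x).1, hx.1⟩, hxW⟩
    · exact fun z => hef z
    · exact fun z hz => hz.2.1
    · exact fun z hz => hWs hz.2.2
  have : Nonempty (OpenPartialHomeomorph E E) := ⟨OpenPartialHomeomorph.refl E⟩
  choose! e he1 he2 he3 he4 using hdata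
  let O : Set E := ⋃ x ∈ hfin.toFinset, (e x).source
  have hO : IsOpen O := isOpen_biUnion fun x _ => (e x).open_source
  obtain ⟨r, hr, hr'⟩ : ∃ r > 0, ∀ z ∈ closure Ω \ O, r ≤ ‖f z - q‖ := by
    have hc : IsCompact (closure Ω \ O) := hΩb.isCompact_closure.diff hO
    rcases (closure Ω \ O).eq_empty_or_nonempty with h | h
    · exact ⟨1, one_pos, fun z hz => by simp [h] at hz⟩
    · obtain ⟨z0, hz0, hmin⟩ :=
        hc.exists_isMinOn h ((hf.continuous.sub continuous_const).norm.continuousOn)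
      refine ⟨‖f z0 - q‖, norm_pos_iff.2 (sub_ne_zero.2 fun h0 => ?_), fun z hz => hmin hz⟩
      by_cases hzF : z0 ∈ frontier Ω
      · exact hbd z0 hzF h0
      · have hx : z0 ∈ hfin.toFinset :=
          (hmem z0).2 ⟨mem_of_notMem_frontier hΩ hz0.1 hzF, h0⟩
        exact hz0.2 (mem_biUnion hx (he1 z0 hx))
  have htar : ∀ᶠ y in 𝓝 q, ∀ x ∈ hfin.toFinset, y ∈ (e x).target := by
    rw [eventually_all_finset]
    intro x hx
    refine (e x).open_target.mem_nhds ?_
    have h := (e x).map_source (he1 x hx)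
    rwa [he2 x hx, ((hmem x).1 hx).2] at h
  obtain ⟨η, hη, hη'⟩ := Metric.eventually_nhds_iff.1 htar
  refine ⟨min r η, lt_min hr hη, fun δ hδ T => ?_⟩
  have hsig : ∀ z, r ≤ ‖f z - q‖ → T.σ (f z - q) = 0 := fun z hz =>
    T.σ_supp _ ((hδ.trans (min_le_left _ _)).trans hz)
  have hOΩ : O ⊆ Ω := iUnion₂_subset fun x hx z hz => (he3 x hx hz).2
  have hjd : ∀ z, jdet (fun w => f w - q) z = jdet f z := fun z => by
    simp only [jdet, fderiv_sub_const]
  have hcont : Continuous (jint T.σ fun z => f z - q) :=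
    continuous_jint T.σ_diff.continuous (hf.sub contDiff_const)
  rw [setIntegral_eq_of_subset_of_forall_sdiff_eq_zero hΩ.measurableSet hOΩ fun z hz => by
    rw [jint, hsig z (hr' z ⟨subset_closure hz.1, hz.2⟩), zero_mul]]
  rw [integral_biUnion_finset _ (fun x _ => (e x).open_source.measurableSet) ?_ ?_]
  rotate_left
  · exact fun x hx y hy hxy => (hUd (by simpa using hx) (by simpa using hy) hxy).mono
      (fun z hz => (he3 x hx hz).1) (fun z hz => (he3 y hy hz).1)
  · exact fun x hx => (hcont.continuousOn.integrableOn_compact hΩb.isCompact_closure).mono_set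
      fun z hz => subset_closure (he3 x hx hz).2
  have hterm : ∀ x ∈ hfin.toFinset, ∫ z in (e x).source, jint T.σ (fun w => f w - q) z ∂μ
      = ((SignType.sign (jdet f x) : ℤ) : ℝ) * ∫ y, T.σ y ∂μ := by
    intro x hx
    have hd : ∀ z ∈ (e x).source, HasFDerivAt (e x) (fderiv ℝ f z) z := fun z _ => by
      rw [show (⇑(e x)) = f from funext (he2 x hx)]
      exact (hf.differentiable one_ne_zero z).hasFDerivAt
    have h := integral_target_eq_integral_abs_det_fderiv_smul μ hd (fun y => T.σ (y - q))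
    rw [setIntegral_eq_integral_of_forall_compl_eq_zero (fun y hy => T.σ_supp _ ?_),
      integral_sub_right_eq_self] at h
    swap
    · by_contra hlt
      push Not at hlt
      refine hy (hη' ?_ x hx)
      rw [dist_eq_norm]
      exact lt_of_lt_of_le hlt (hδ.trans (min_le_right _ _))
    rw [h, ← integral_const_mul]
    refine setIntegral_congr_fun (e x).open_source.measurableSet fun z hz => ?_
    rw [he2 x hx, jint, hjd, smul_eq_mul, ← he4 x hx z hz]
    have hs : ((SignType.sign (jdet f z) : ℤ) : ℝ) * |jdet f z| = jdet f z := by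
      rcases lt_trichotomy (jdet f z) 0 with h' | h' | h'
      · simp [sign_neg h', abs_of_neg h']
      · simp [h']
      · simp [sign_pos h', abs_of_pos h']
    show _ = _ * (|jdet f z| * T.σ (f z - q))
    rw [← mul_assoc, hs, mul_comm]
  rw [Finset.sum_congr rfl hterm, ← Finset.sum_mul, signSum,
    finsum_mem_eq_finite_toFinset_sum _ hfin]
  push_cast
  rfl

/-- Invariance of the sum of signs under boundary avoiding linear homotopies. -/
theorem signSum_congr [Nontrivial E] {f g : E → E} (hf : ContDiff ℝ 1 f) (hg : ContDiff ℝ 1 g)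
    {Ω : Set E} (hΩ : IsOpen Ω) (hΩb : Bornology.IsBounded Ω) {p q : E}
    (hp : Regular f Ω p) (hq : Regular g Ω q) {ρ : ℝ} (hρ : 0 < ρ)
    (h : ∀ x ∈ frontier Ω, ∀ s ∈ Icc (0 : ℝ) 1,
      ρ ≤ ‖(1 - s) • (f x - p) + s • (g x - q)‖) :
    signSum f Ω p = signSum g Ω q := by
  classical
  have hfb : ∀ x ∈ frontier Ω, f x ≠ p := fun x hx he => by
    have := h x hx 0 (by simp)
    simp [he] at this
    linarith
  have hgb : ∀ x ∈ frontier Ω, g x ≠ q := fun x hx he => by
    have := h x hx 1 (by simp)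
    simp [he] at this
    linarith
  obtain ⟨ε₁, hε₁, hE₁⟩ := exists_forall_integral_eq_signSum Measure.addHaar hf hΩ hΩb hp hfb
  obtain ⟨ε₂, hε₂, hE₂⟩ := exists_forall_integral_eq_signSum Measure.addHaar hg hΩ hΩb hq hgb
  let ε := min ρ (min ε₁ ε₂) / 2
  have hε : 0 < ε := by positivity
  have hερ : ε < ρ := by
    have := min_le_left ρ (min ε₁ ε₂)
    simp only [ε]; linarith
  obtain ⟨T⟩ := exists_tester (E := E) hε
  have hT1 := hE₁ ε (by
    have := min_le_right ρ (min ε₁ ε₂)
    have := min_le_left ε₁ ε₂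
    simp only [ε]; linarith) T
  have hT2 := hE₂ ε (by
    have := min_le_right ρ (min ε₁ ε₂)
    have := min_le_right ε₁ ε₂
    simp only [ε]; linarith) T
  let S : Set E := (fun xs : E × ℝ => xs.1) '' ((closure Ω ×ˢ Icc (0 : ℝ) 1) ∩
    {xs | ‖(1 - xs.2) • (f xs.1 - p) + xs.2 • (g xs.1 - q)‖ ≤ ε})
  have hSc : IsCompact S := by
    refine (IsCompact.inter_right (hΩb.isCompact_closure.prod isCompact_Icc) ?_).image continuous_fst
    have := hf.continuous
    have := hg.continuous
    exact isClosed_le (by fun_prop) continuous_const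
  have hSΩ : S ⊆ Ω := by
    rintro _ ⟨⟨x, s⟩, ⟨⟨hx, hs⟩, hle⟩, rfl⟩
    refine mem_of_notMem_frontier hΩ hx fun hfr => ?_
    exact absurd (le_trans (h x hfr s hs) hle) (not_le.2 hερ)
  obtain ⟨Λ, hΛc, hSΛ, hΛΩ⟩ := exists_compact_between hSc hΩ hSΩ
  obtain ⟨χ, hχ1, hχ0, hχI⟩ := exists_contMDiffMap_one_nhds_of_subset_interior
    (n := (1 : ℕ∞)) (modelWithCornersSelf ℝ E) (t := Λ) hSc.isClosed hSΛ
  have hχd : ContDiff ℝ 1 (χ : E → ℝ) := contMDiff_iff_contDiff.1 χ.contMDiff
  let k : E → E := fun x => (f x - p) + χ x • ((g x - q) - (f x - p))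
  have hfp : ContDiff ℝ 1 fun x => f x - p := hf.sub contDiff_const
  have hgq : ContDiff ℝ 1 fun x => g x - q := hg.sub contDiff_const
  have hk : ContDiff ℝ 1 k := hfp.add (hχd.smul (hgq.sub hfp))
  have hout : ∀ x ∉ Λ, k x = f x - p := fun x hx => by simp [k, hχ0 x hx]
  have h0 := integral_jint_sub_eq_zero (Measure.addHaar : Measure E) T hk hfp hΛc hout
  rw [← setIntegral_eq_integral_of_forall_compl_eq_zero (s := Ω) fun x hx => ?_] at h0
  swap
  · have hev : k =ᶠ[𝓝 x] fun z => f z - p := by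
      filter_upwards [hΛc.isClosed.isOpen_compl.mem_nhds fun hx' => hx (hΛΩ hx')] with z hz
      exact hout z hz
    rw [jint, jint, jdet, jdet, hev.fderiv_eq, hev.eq_of_nhds, sub_self]
  have hint : ∀ {u : E → E}, ContDiff ℝ 1 u →
      IntegrableOn (jint T.σ u) Ω (Measure.addHaar : Measure E) := fun hu =>
    ((continuous_jint T.σ_diff.continuous hu).continuousOn.integrableOn_compact
      hΩb.isCompact_closure).mono_set subset_closure
  rw [integral_sub (hint hk) (hint hfp), sub_eq_zero] at h0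
  have hkg : ∀ x ∈ Ω, jint T.σ k x = jint T.σ (fun z => g z - q) x := by
    intro x hx
    by_cases hxS : x ∈ S
    · have hev : k =ᶠ[𝓝 x] fun z => g z - q := by
        filter_upwards [hχ1.filter_mono (nhds_le_nhdsSet hxS)] with z hz
        simp [k, hz]
      rw [jint, jint, jdet, jdet, hev.fderiv_eq, hev.eq_of_nhds]
    · have hseg : ∀ s ∈ Icc (0 : ℝ) 1, T.σ ((1 - s) • (f x - p) + s • (g x - q)) = 0 := by
        intro s hs
        refine T.σ_supp _ ?_
        by_contra hlt
        exact hxS ⟨(x, s), ⟨⟨subset_closure hx, hs⟩, (not_le.1 hlt).le⟩, rfl⟩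
      have h1 : T.σ (k x) = 0 := by
        convert hseg (χ x) (hχI x) using 2
        simp only [k]
        module
      have h2 : T.σ (g x - q) = 0 := by simpa using hseg 1 (by simp)
      simp [jint, h1, h2]
  rw [setIntegral_congr_fun hΩ.measurableSet hkg, hT1, hT2] at h0
  have hpos := T.integral_pos (Measure.addHaar : Measure E)
  exact_mod_cast (mul_right_cancel₀ hpos.ne' h0).symm

omit [MeasurableSpace E] [BorelSpace E] in
lemma exists_norm_lower_bound {K : Set E} (hK : IsCompact K) {f : E → E} (hf : ContinuousOn f K)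
    {q : E} (hq : ∀ x ∈ K, f x ≠ q) : ∃ r > 0, ∀ x ∈ K, r ≤ ‖f x - q‖ := by
  obtain ⟨r, hr, h⟩ := hK.exists_forall_le' (a := (0 : ℝ)) (hf.sub continuousOn_const).norm
    fun x hx => norm_pos_iff.2 (sub_ne_zero.2 (hq x hx))
  exact ⟨r, hr, h⟩

/-- Regular values avoiding a null set are available near every point. -/
lemma exists_regular_near {g : E → E} (hg : ContDiff ℝ 1 g) (Ω : Set E) (q : E) {δ : ℝ}
    (hδ : 0 < δ) {N : Set E} (hN : μ N = 0) :
    ∃ q', ‖q' - q‖ < δ ∧ Regular g Ω q' ∧ q' ∉ N := by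
  have hcrit : μ (g '' {x | jdet g x = 0}) = 0 :=
    addHaar_image_eq_zero_of_det_fderivWithin_eq_zero μ
      (fun x _ => (hg.differentiable one_ne_zero x).hasFDerivAt.hasFDerivWithinAt) fun x hx => hx
  by_contra hne
  push Not at hne
  have hsub : ball q δ ⊆ g '' {x | jdet g x = 0} ∪ N := by
    intro y hy
    rw [mem_ball, dist_eq_norm] at hy
    by_cases hr : Regular g Ω y
    · exact Or.inr (hne y hy hr)
    · simp only [Regular, not_forall, not_not] at hr
      obtain ⟨x, -, hxy, hx0⟩ := hr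
      exact Or.inl ⟨x, hx0, hxy⟩
  exact (measure_ball_pos μ q hδ).ne' (measure_mono_null hsub (measure_union_null hcrit hN))

/-- A `C¹` map and a regular value approximating `f` at `q` along the frontier. -/
def IsApprox (f : E → E) (Ω : Set E) (q : E) (g : E → E) (q' : E) : Prop :=
  ContDiff ℝ 1 g ∧ Regular g Ω q' ∧
    ∀ x ∈ frontier Ω, ‖(g x - q') - (f x - q)‖ < ‖f x - q‖ / 2

open Classical in
/-- The degree of `f` on `Ω` at `q`. -/
def degree (f : E → E) (Ω : Set E) (q : E) : ℤ :=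
  if h : ∃ a : (E → E) × E, IsApprox f Ω q a.1 a.2 then
    signSum h.choose.1 Ω h.choose.2 else 0

theorem degree_eq [Nontrivial E] {f : E → E} {Ω : Set E} (hΩ : IsOpen Ω)
    (hΩb : Bornology.IsBounded Ω) (hf : ContinuousOn f (frontier Ω)) {q : E} {g : E → E} {q' : E}
    (h : IsApprox f Ω q g q') : degree f Ω q = signSum g Ω q' := by
  have hex : ∃ a : (E → E) × E, IsApprox f Ω q a.1 a.2 := ⟨(g, q'), h⟩
  obtain ⟨hc, hr, hb⟩ := hex.choose_spec
  rw [degree, dif_pos hex]
  have hK : IsCompact (frontier Ω) :=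
    hΩb.isCompact_closure.of_isClosed_subset isClosed_frontier frontier_subset_closure
  obtain ⟨r, hr0, hrb⟩ := exists_norm_lower_bound hK hf (q := q) fun x hx he => by
    have := h.2.2 x hx
    rw [he, sub_self, norm_zero] at this
    linarith [norm_nonneg (g x - q' - 0)]
  refine signSum_congr hc h.1 hΩ hΩb hr h.2.1 (ρ := r / 2) (by positivity) fun x hx s hs => ?_
  have h1 : ‖(hex.choose.1 x - hex.choose.2) - (f x - q)‖ < ‖f x - q‖ / 2 :=
    (hex.choose_spec).2.2 x hx
  have h2 := h.2.2 x hx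
  have hsum : ‖(1 - s) • (hex.choose.1 x - hex.choose.2) + s • (g x - q') - (f x - q)‖
      ≤ ‖f x - q‖ / 2 := by
    rw [show (1 - s) • (hex.choose.1 x - hex.choose.2) + s • (g x - q') - (f x - q)
        = (1 - s) • ((hex.choose.1 x - hex.choose.2) - (f x - q))
          + s • ((g x - q') - (f x - q)) by module]
    exact (convex_closedBall (0 : E) (‖f x - q‖ / 2)) (by simpa using h1.le)
      (by simpa using h2.le) (by linarith [hs.2]) hs.1 (by ring) |> mem_closedBall_zero_iff.1
  have := norm_le_norm_add_norm_sub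
    ((1 - s) • (hex.choose.1 x - hex.choose.2) + s • (g x - q')) (f x - q)
  linarith [hrb x hx, norm_sub_rev (f x - q)
    ((1 - s) • (hex.choose.1 x - hex.choose.2) + s • (g x - q'))]

/-- Existence of uniformly close approximations. -/
theorem exists_approx {f : E → E} (hf : Continuous f) (Ω : Set E) (q : E) {δ : ℝ} (hδ : 0 < δ)
    {N : Set E} (hN : μ N = 0) :
    ∃ g q', ContDiff ℝ 1 g ∧ Regular g Ω q' ∧ q' ∉ N ∧ ‖q' - q‖ < δ ∧
      ∀ x, ‖g x - f x‖ < δ := by
  obtain ⟨g, hg, hgf, -⟩ := hf.exists_contDiff_approx 1 continuous_const fun _ => hδ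
  obtain ⟨q', h1, h2, h3⟩ := exists_regular_near μ hg Ω q hδ hN
  exact ⟨g, q', hg, h2, h3, h1, fun x => by simpa [dist_eq_norm] using hgf x⟩

omit [MeasurableSpace E] [BorelSpace E] in
lemma isApprox_of_close {f g : E → E} {Ω : Set E} {q q' : E} (hg : ContDiff ℝ 1 g)
    (hr : Regular g Ω q') {r δ : ℝ} (hδ : 4 * δ ≤ r) (hb : ∀ x ∈ frontier Ω, r ≤ ‖f x - q‖)
    (hq : ‖q' - q‖ < δ) (hgf : ∀ x ∈ frontier Ω, ‖g x - f x‖ < δ) : IsApprox f Ω q g q' := by
  refine ⟨hg, hr, fun x hx => ?_⟩
  calc ‖(g x - q') - (f x - q)‖ = ‖(g x - f x) - (q' - q)‖ := by congr 1; abel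
    _ ≤ ‖g x - f x‖ + ‖q' - q‖ := norm_sub_le _ _
    _ < _ := by linarith [hgf x hx, hb x hx]

section
omit [MeasurableSpace E] [BorelSpace E]

lemma frontier_isCompact {Ω : Set E} (hΩb : Bornology.IsBounded Ω) : IsCompact (frontier Ω) :=
  hΩb.isCompact_closure.of_isClosed_subset isClosed_frontier frontier_subset_closure

variable [Nontrivial E]

/-- Homotopy invariance of the degree. -/
theorem degree_homotopy {Ω : Set E} (hΩ : IsOpen Ω) (hΩb : Bornology.IsBounded Ω) {q : E}
    {F : ℝ → E → E} (hF : Continuous fun z : ℝ × E => F z.1 z.2)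
    (h : ∀ s ∈ Icc (0 : ℝ) 1, ∀ x ∈ frontier Ω, F s x ≠ q) :
    degree (F 0) Ω q = degree (F 1) Ω q := by
  borelize E
  have hK := frontier_isCompact hΩb
  have hFc : ∀ s, Continuous (F s) := fun s => hF.comp (Continuous.prodMk_right s)
  have hloc : ∀ s₀ ∈ Icc (0 : ℝ) 1, ∀ᶠ s in 𝓝[Icc 0 1] s₀,
      degree (F s) Ω q = degree (F s₀) Ω q := by
    intro s₀ hs₀
    obtain ⟨r, hr, hrb⟩ := exists_norm_lower_bound hK (hFc s₀).continuousOn (h s₀ hs₀)
    obtain ⟨g, q', hg, hgr, -, hq', hgf⟩ :=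
      exists_approx (Measure.addHaar : Measure E) (hFc s₀) Ω q
        (δ := r / 16) (by positivity) (measure_empty)
    have hu : ∀ᶠ s in 𝓝 s₀, ∀ x ∈ frontier Ω, dist (F s₀ x) (F s x) < r / 16 := by
      refine hK.eventually_forall_of_forall_eventually fun x _ => ?_
      have hc : Continuous fun p : ℝ × E => dist (F s₀ p.2) (F p.1 p.2) :=
        ((hFc s₀).comp continuous_snd).dist hF
      exact hc.continuousAt.preimage_mem_nhds (Iio_mem_nhds (by simpa using (by positivity)))
    filter_upwards [hu.filter_mono nhdsWithin_le_nhds] with s hs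
    have hb : ∀ x ∈ frontier Ω, r / 2 ≤ ‖F s x - q‖ := fun x hx => by
      have h1 := hs x hx
      rw [dist_eq_norm] at h1
      have := norm_sub_le_norm_sub_add_norm_sub (F s₀ x) (F s x) q
      linarith [hrb x hx]
    rw [degree_eq hΩ hΩb (hFc s).continuousOn (isApprox_of_close hg hgr (r := r / 2)
        (δ := r / 8) (by linarith) hb (by linarith) fun x hx => ?_),
      degree_eq hΩ hΩb (hFc s₀).continuousOn (isApprox_of_close hg hgr (r := r)
        (δ := r / 16) (by linarith) hrb hq' fun x _ => hgf x)]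
    have h1 := hs x hx
    rw [dist_eq_norm] at h1
    have := norm_sub_le_norm_sub_add_norm_sub (g x) (F s₀ x) (F s x)
    linarith [hgf x]
  have hcon : ContinuousOn (fun s => degree (F s) Ω q) (Icc (0 : ℝ) 1) := by
    intro s₀ hs₀
    exact tendsto_nhds_of_eventually_eq (hloc s₀ hs₀)
  exact isPreconnected_Icc.constant hcon (by simp) (by simp)

/-- Linear homotopy invariance. -/
theorem degree_congr {Ω : Set E} (hΩ : IsOpen Ω) (hΩb : Bornology.IsBounded Ω) {q : E}
    {f g : E → E} (hf : Continuous f) (hg : Continuous g)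
    (h : ∀ x ∈ frontier Ω, ∀ s ∈ Icc (0 : ℝ) 1, (1 - s) • f x + s • g x ≠ q) :
    degree f Ω q = degree g Ω q := by
  have := degree_homotopy hΩ hΩb (q := q) (F := fun s x => (1 - s) • f x + s • g x)
    (by fun_prop) fun s hs x hx => h x hx s hs
  simpa using this

/-- A map omitting the value on the closure has degree zero. -/
theorem degree_eq_zero {Ω : Set E} (hΩ : IsOpen Ω) (hΩb : Bornology.IsBounded Ω) {q : E}
    {f : E → E} (hf : Continuous f) (h : ∀ x ∈ closure Ω, f x ≠ q) : degree f Ω q = 0 := by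
  borelize E
  obtain ⟨r, hr, hrb⟩ := exists_norm_lower_bound hΩb.isCompact_closure hf.continuousOn h
  obtain ⟨g, q', hg, hgr, -, hq', hgf⟩ :=
    exists_approx (Measure.addHaar : Measure E) hf Ω q (δ := r / 4) (by positivity) (measure_empty)
  rw [degree_eq hΩ hΩb hf.continuousOn (isApprox_of_close hg hgr (r := r) (δ := r / 4)
    (by linarith) (fun x hx => hrb x (frontier_subset_closure hx)) hq' fun x _ => hgf x)]
  have he : Ω ∩ g ⁻¹' {q'} = ∅ := by
    rw [eq_empty_iff_forall_notMem]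
    rintro x ⟨hx, hxq⟩
    have hxq' : g x = q' := hxq
    have h1 := norm_sub_le_norm_sub_add_norm_sub (f x) (g x) q
    rw [hxq'] at h1
    have h2 := hgf x
    rw [hxq'] at h2
    linarith [hrb x (subset_closure hx), norm_sub_rev (f x) q']
  simp [signSum, he]

/-- The degree of the identity. -/
theorem degree_id {Ω : Set E} (hΩ : IsOpen Ω) (hΩb : Bornology.IsBounded Ω) {q : E}
    (hq : q ∈ Ω) : degree (id : E → E) Ω q = 1 := by
  borelize E
  have hd : ∀ x : E, jdet (id : E → E) x = 1 := fun x => by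
    simp [jdet, ContinuousLinearMap.det]
  rw [degree_eq hΩ hΩb continuous_id.continuousOn (g := id) (q' := q)
    ⟨contDiff_id, fun x _ _ => by rw [hd]; exact one_ne_zero, fun x hx => ?_⟩]
  · have he : Ω ∩ (id : E → E) ⁻¹' {q} = {q} := by
      ext x; simp only [mem_inter_iff, preimage_id, mem_singleton_iff]; grind
    rw [signSum, he, finsum_mem_singleton, hd]
    simp
  · have hne : x ≠ q := fun h => by
      have := hx.2
      rw [hΩ.interior_eq, h] at this
      exact this hq
    simpa using sub_ne_zero.2 hne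

/-- Additivity. -/
theorem degree_union {Ω Ω₁ Ω₂ : Set E} (hΩ : IsOpen Ω) (hΩb : Bornology.IsBounded Ω)
    (h₁ : IsOpen Ω₁) (h₂ : IsOpen Ω₂) (hs₁ : Ω₁ ⊆ Ω) (hs₂ : Ω₂ ⊆ Ω) (hd : Disjoint Ω₁ Ω₂)
    {f : E → E} (hf : Continuous f) {q : E}
    (h : ∀ x ∈ closure Ω, x ∉ Ω₁ ∪ Ω₂ → f x ≠ q) :
    degree f Ω q = degree f Ω₁ q + degree f Ω₂ q := by
  borelize E
  obtain ⟨r, hr, hrb⟩ := exists_norm_lower_bound
    (hΩb.isCompact_closure.diff (h₁.union h₂)) hf.continuousOn (q := q)
    (fun x hx => h x hx.1 hx.2)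
  obtain ⟨g, q', hg, hgr, -, hq', hgf⟩ :=
    exists_approx (Measure.addHaar : Measure E) hf Ω q (δ := r / 4) (by positivity) (measure_empty)
  have hfr : ∀ Ω' : Set E, Ω' = Ω ∨ Ω' = Ω₁ ∨ Ω' = Ω₂ →
      degree f Ω' q = signSum g Ω' q' := by
    intro Ω' hΩ'
    have hsub : Ω' ⊆ Ω := by
      rcases hΩ' with rfl | rfl | rfl
      exacts [le_rfl, hs₁, hs₂]
    have ho : IsOpen Ω' := by rcases hΩ' with rfl | rfl | rfl <;> assumption
    refine degree_eq ho (hΩb.subset hsub) hf.continuousOn (isApprox_of_close hg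
      (fun x hx => hgr x (closure_mono hsub hx)) (r := r) (δ := r / 4) (by linarith)
      (fun x hx => ?_) hq' fun x _ => hgf x)
    refine hrb x ⟨closure_mono hsub hx.1, ?_⟩
    have hnx : x ∉ Ω' := fun h' => hx.2 (by rwa [ho.interior_eq])
    rcases hΩ' with rfl | rfl | rfl
    · exact fun h' => hnx (h'.elim (fun a => hs₁ a) fun a => hs₂ a)
    · rintro (h' | h')
      · exact hnx h'
      · obtain ⟨z, hz⟩ := mem_closure_iff.1 hx.1 Ω₂ h₂ h'
        exact disjoint_left.1 hd hz.2 hz.1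
    · rintro (h' | h')
      · obtain ⟨z, hz⟩ := mem_closure_iff.1 hx.1 Ω₁ h₁ h'
        exact disjoint_left.1 hd hz.1 hz.2
      · exact hnx h'
  rw [hfr Ω (by simp), hfr Ω₁ (by simp), hfr Ω₂ (by simp)]
  have hfin := finite_preimage hg hΩb hgr
  have hset : Ω ∩ g ⁻¹' {q'} = (Ω₁ ∩ g ⁻¹' {q'}) ∪ (Ω₂ ∩ g ⁻¹' {q'}) := by
    rw [← union_inter_distrib_right]
    refine Subset.antisymm ?_ (inter_subset_inter_left _ (union_subset hs₁ hs₂))
    rintro x ⟨hx, hxq⟩
    refine ⟨?_, hxq⟩
    by_contra hne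
    have hxq' : g x = q' := hxq
    have h1 := norm_sub_le_norm_sub_add_norm_sub (f x) (g x) q
    rw [hxq'] at h1
    have h2 := hgf x
    rw [hxq'] at h2
    linarith [hrb x ⟨subset_closure hx, hne⟩, norm_sub_rev (f x) q']
  simp only [signSum]
  rw [hset, finsum_mem_union (hd.mono inter_subset_left inter_subset_left)
    (hfin.subset (inter_subset_inter_left _ (hs₁.trans subset_closure)))
    (hfin.subset (inter_subset_inter_left _ (hs₂.trans subset_closure)))]

end

end Vale.Agent.P228
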