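import Mathlib

/-!
The analytic core of an elementary degree theory: invariance of the signed
change of variables integral under compactly supported changes of the map.
-/

noncomputable section

open Set Filter MeasureTheory Metric Function Module
open scoped Topology NNReal

namespace Vale.Agent.P228

variable {E : Type*} [NormedAddCommGroup E] [NormedSpace ℝ E] [FiniteDimensional ℝ E]
  [MeasurableSpace E] [BorelSpace E] (μ : Measure E) [μ.IsAddHaarMeasure]

/-- The determinant of the derivative. -/
def jdet (f : E → E) (x : E) : ℝ := (fderiv ℝ f x).det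

omit [MeasurableSpace E] [BorelSpace E] in
lemma continuous_jdet {f : E → E} (hf : ContDiff ℝ 1 f) : Continuous (jdet f) :=
  ContinuousLinearMap.continuous_det.comp (hf.continuous_fderiv one_ne_zero)

omit [MeasurableSpace E] [BorelSpace E] in
lemma exists_det_poly (A : E →L[ℝ] E) :
    ∃ q : Polynomial ℝ, q.natDegree ≤ finrank ℝ E ∧
      ∀ t : ℝ, q.eval t = (ContinuousLinearMap.id ℝ E + t • A).det := by
  classical
  let b := finBasis ℝ E
  let M := LinearMap.toMatrix b b A.toLinearMap
  refine ⟨((Polynomial.X : Polynomial ℝ) • M.map Polynomial.C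
      + (1 : Matrix _ _ ℝ).map Polynomial.C).det, ?_, ?_⟩
  · simpa using Polynomial.natDegree_det_X_add_C_le M 1
  · intro t
    rw [ContinuousLinearMap.det, ← LinearMap.det_toMatrix b]
    rw [← Polynomial.coe_evalRingHom, RingHom.map_det]
    congr 1
    ext i j
    by_cases h : i = j <;>
      simp [M, LinearMap.toMatrix_apply, Matrix.one_apply, h, Finsupp.single_apply] <;> ring

omit [MeasurableSpace E] [BorelSpace E] in
/-- Values at finitely many small parameters determine the determinant at parameter one. -/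
lemma exists_interp_det {δ : ℝ} (hδ : 0 < δ) :
    ∃ (c t : Fin (finrank ℝ E + 1) → ℝ), (∀ i, |t i| < δ) ∧ ∑ i, c i = 1 ∧
      ∀ A : E →L[ℝ] E, (ContinuousLinearMap.id ℝ E + A).det
        = ∑ i, c i * (ContinuousLinearMap.id ℝ E + t i • A).det := by
  classical
  let N := finrank ℝ E + 1
  let t : Fin N → ℝ := fun i => δ * (i : ℝ) / N
  have hN : (0 : ℝ) < (N : ℝ) := by positivity
  have ht : Set.InjOn t ((Finset.univ : Finset (Fin N)) : Set (Fin N)) := by
    intro i _ j _ h
    simp only [t] at h
    field_simp at h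
    exact Fin.ext (by exact_mod_cast h)
  let c : Fin N → ℝ := fun i => (Lagrange.basis Finset.univ t i).eval 1
  have key : ∀ q : Polynomial ℝ, q.natDegree ≤ finrank ℝ E →
      q.eval 1 = ∑ i, c i * q.eval (t i) := by
    intro q hq
    have hd : q.degree < (Finset.univ : Finset (Fin N)).card := by
      refine lt_of_le_of_lt Polynomial.degree_le_natDegree ?_
      have h : q.natDegree < N := Nat.lt_succ_of_le hq
      simpa using h
    conv_lhs => rw [Lagrange.eq_interpolate ht hd]
    simp [Lagrange.interpolate_apply, Polynomial.eval_finsetSum, c, mul_comm]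
  refine ⟨c, t, fun i => ?_, ?_, fun A => ?_⟩
  · rw [abs_of_nonneg (by positivity)]
    rw [div_lt_iff₀ hN]
    have : (i : ℝ) < N := by exact_mod_cast i.2
    exact mul_lt_mul_of_pos_left this hδ
  · simpa using (key 1 (by simp)).symm
  · obtain ⟨q, hq, hqe⟩ := exists_det_poly A
    simpa [hqe] using key q hq

omit [MeasurableSpace E] [BorelSpace E] in
lemma det_id_add_pos {A : E →L[ℝ] E} (hA : ‖A‖ < 1) :
    0 < (ContinuousLinearMap.id ℝ E + A).det := by
  have hne : ∀ s ∈ Icc (0 : ℝ) 1, (ContinuousLinearMap.id ℝ E + s • A).det ≠ 0 := by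
    intro s hs h0
    have hinj : Function.Injective
        ((ContinuousLinearMap.id ℝ E + s • A : E →L[ℝ] E) : E →ₗ[ℝ] E) := by
      rw [injective_iff_map_eq_zero]
      intro x hx
      have hx' : x + s • A x = 0 := by simpa using hx
      by_contra hne
      have hpos : 0 < ‖x‖ := norm_pos_iff.2 hne
      have h1 : ‖x‖ = ‖s • A x‖ := by
        have h := congrArg norm (eq_neg_of_add_eq_zero_left hx')
        rwa [norm_neg] at h
      have h2 : ‖s • A x‖ ≤ ‖A‖ * ‖x‖ := by
        rw [norm_smul, Real.norm_eq_abs, abs_of_nonneg hs.1]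
        calc s * ‖A x‖ ≤ 1 * ‖A x‖ := mul_le_mul_of_nonneg_right hs.2 (norm_nonneg _)
          _ = ‖A x‖ := one_mul _
          _ ≤ ‖A‖ * ‖x‖ := A.le_opNorm x
      nlinarith
    have hb := LinearMap.bot_lt_ker_of_det_eq_zero
      (f := ((ContinuousLinearMap.id ℝ E + s • A : E →L[ℝ] E) : E →ₗ[ℝ] E)) h0
    rw [LinearMap.ker_eq_bot.2 hinj] at hb
    exact lt_irrefl _ hb
  have hc : Continuous fun s : ℝ => (ContinuousLinearMap.id ℝ E + s • A).det :=
    ContinuousLinearMap.continuous_det.comp (by fun_prop)
  by_contra hle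
  push Not at hle
  have h0 : (0 : ℝ) ∈ Icc ((ContinuousLinearMap.id ℝ E + (1:ℝ) • A).det)
      ((ContinuousLinearMap.id ℝ E + (0:ℝ) • A).det) := by
    constructor
    · simpa using hle
    · simp [ContinuousLinearMap.det]
  obtain ⟨s, hs, hs0⟩ := intermediate_value_Icc' zero_le_one hc.continuousOn h0
  exact hne s hs hs0

lemma integral_jdet_eq_measure {v : E → E} (hv : ContDiff ℝ 1 v) {R : ℝ}
    (hR : ∀ x, x ∉ closedBall (0 : E) R → v x = 0) {C : ℝ≥0} (hC : LipschitzWith C v)
    {t : ℝ} (ht : |t| * C < 1) :
    ∫ x in closedBall (0 : E) R, (ContinuousLinearMap.id ℝ E + t • fderiv ℝ v x).det ∂μ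
      = μ.real (closedBall (0 : E) R) := by
  let f : E → E := fun x => x + t • v x
  have hder : ∀ x, HasFDerivAt f (ContinuousLinearMap.id ℝ E + t • fderiv ℝ v x) x := fun x =>
    (hasFDerivAt_id x).add ((hv.differentiable one_ne_zero x).hasFDerivAt.const_smul t)
  have hLip : ∀ x y, ‖t • v x - t • v y‖ ≤ (|t| * C) * ‖x - y‖ := fun x y => by
    rw [← smul_sub, norm_smul, Real.norm_eq_abs, mul_assoc]
    exact mul_le_mul_of_nonneg_left (hC.norm_sub_le x y) (abs_nonneg t)
  have hinj : Injective f := by
    intro x y h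
    by_contra hne
    have h1 := hLip x y
    have h2 : t • v x - t • v y = -(x - y) := by
      have : x + t • v x = y + t • v y := h
      linear_combination (norm := module) this
    rw [h2, norm_neg] at h1
    have : 0 < ‖x - y‖ := norm_pos_iff.2 (sub_ne_zero.2 hne)
    nlinarith
  have hsurj : Surjective f := by
    intro y
    let T : E → E := fun x => y - t • v x
    have hct : ContractingWith ⟨|t| * C, by positivity⟩ T := by
      refine ⟨by exact_mod_cast ht, LipschitzWith.of_dist_le_mul fun a b => ?_⟩
      simp only [T, dist_eq_norm, NNReal.coe_mk]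
      calc ‖(y - t • v a) - (y - t • v b)‖ = ‖t • v a - t • v b‖ := by
            rw [← norm_neg]; congr 1; abel
        _ ≤ _ := hLip a b
    refine ⟨hct.fixedPoint, ?_⟩
    have h := hct.fixedPoint_isFixedPt
    simp only [IsFixedPt, T] at h
    simp only [f]
    nth_rw 1 [← h]
    abel
  have himage : f '' closedBall (0 : E) R = closedBall (0 : E) R := by
    have houtside : ∀ x, x ∉ closedBall (0 : E) R → f x = x := fun x hx => by simp [f, hR x hx]
    ext y
    constructor
    · rintro ⟨x, hx, rfl⟩
      by_contra hne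
      have h2 : f (f x) = f x := houtside _ hne
      exact hne (by rwa [hinj h2])
    · intro hy
      obtain ⟨x, rfl⟩ := hsurj y
      refine ⟨x, ?_, rfl⟩
      by_contra hne
      exact hne (by rwa [houtside x hne] at hy)
  have hpos : ∀ x, 0 < (ContinuousLinearMap.id ℝ E + t • fderiv ℝ v x).det := fun x => by
    apply det_id_add_pos
    rw [norm_smul, Real.norm_eq_abs]
    refine lt_of_le_of_lt (mul_le_mul_of_nonneg_left ?_ (abs_nonneg t)) ht
    exact norm_fderiv_le_of_lipschitz ℝ hC
  have h := integral_image_eq_integral_abs_det_fderiv_smul μ measurableSet_closedBall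
    (fun x (_ : x ∈ closedBall (0 : E) R) => (hder x).hasFDerivWithinAt) hinj.injOn
    (fun _ => (1 : ℝ))
  rw [himage, setIntegral_const, smul_eq_mul, mul_one] at h
  rw [h]
  refine setIntegral_congr_fun measurableSet_closedBall fun x _ => ?_
  simp [abs_of_pos (hpos x)]

/-- The integral of `det (1 + Dv) - 1` vanishes for compactly supported `v`. -/
theorem integral_det_sub_one {v : E → E} (hv : ContDiff ℝ 1 v) (hs : HasCompactSupport v) :
    ∫ x, ((ContinuousLinearMap.id ℝ E + fderiv ℝ v x).det - 1) ∂μ = 0 := by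
  obtain ⟨C, hC⟩ := hv.lipschitzWith_of_hasCompactSupport hs one_ne_zero
  obtain ⟨c, t, ht, hc, hdet⟩ := exists_interp_det (E := E) (δ := 1 / ((C : ℝ) + 1)) (by positivity)
  obtain ⟨R, hR⟩ := hs.isBounded.subset_closedBall (0 : E)
  have hvR : ∀ x, x ∉ closedBall (0 : E) R → v x = 0 := fun x hx =>
    image_eq_zero_of_notMem_tsupport fun h => hx (hR h)
  have hdR : ∀ x, x ∉ closedBall (0 : E) R → fderiv ℝ v x = 0 := fun x hx =>
    image_eq_zero_of_notMem_tsupport fun h => hx (hR ((tsupport_fderiv_subset ℝ) h))
  rw [← setIntegral_eq_integral_of_forall_compl_eq_zero (s := closedBall (0 : E) R)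
    (fun x hx => by simp [hdR x hx, ContinuousLinearMap.det])]
  have hcont : ∀ r : ℝ,
      Continuous fun x => (ContinuousLinearMap.id ℝ E + r • fderiv ℝ v x).det := fun r =>
    ContinuousLinearMap.continuous_det.comp
      (continuous_const.add ((hv.continuous_fderiv one_ne_zero).const_smul r))
  have hint : ∀ r : ℝ, IntegrableOn
      (fun x => (ContinuousLinearMap.id ℝ E + r • fderiv ℝ v x).det) (closedBall (0 : E) R) μ :=
    fun r => (hcont r).continuousOn.integrableOn_compact (isCompact_closedBall _ _)
  rw [setIntegral_congr_fun measurableSet_closedBall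
    (fun x _ => congrArg (fun r : ℝ => r - 1) (hdet (fderiv ℝ v x)))]
  rw [integral_sub, integral_finsetSum]
  · have hterm : ∀ i, ∫ x in closedBall (0 : E) R,
        c i * (ContinuousLinearMap.id ℝ E + t i • fderiv ℝ v x).det ∂μ
          = c i * μ.real (closedBall (0 : E) R) := fun i => by
      rw [integral_const_mul, integral_jdet_eq_measure μ hv hvR hC]
      calc |t i| * C ≤ (1 / ((C : ℝ) + 1)) * C :=
            mul_le_mul_of_nonneg_right (ht i).le C.2
        _ < 1 := by
          rw [div_mul_eq_mul_div, one_mul, div_lt_one (by positivity)]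
          linarith
    simp_rw [hterm, ← Finset.sum_mul, hc]
    simp
  · exact fun i _ => (hint (t i)).const_mul (c i)
  · exact integrable_finsetSum _ fun i _ => (hint (t i)).const_mul (c i)
  · exact integrableOn_const (hs := (isCompact_closedBall _ _).measure_lt_top.ne)

/-- A test function: a nonnegative difference-exact bump near the origin. -/
structure Tester (ε : ℝ) where
  /-- The test function. -/
  σ : E → ℝ
  /-- A translation carrying the support far away. -/
  shift : ℝ → E
  /-- Compactly supported potentials. -/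
  pot : ℝ → E → ℝ
  /-- The direction of differentiation of the potentials. -/
  dir : E
  σ_diff : ContDiff ℝ 1 σ
  σ_supp : ∀ y, ε ≤ ‖y‖ → σ y = 0
  σ_nonneg : ∀ y, 0 ≤ σ y
  σ_zero : σ 0 ≠ 0
  shift_big : ∀ L, L ≤ ‖shift L‖
  pot_diff : ∀ L, ContDiff ℝ 1 (pot L)
  pot_supp : ∀ L, HasCompactSupport (pot L)
  pot_deriv : ∀ L y, fderiv ℝ (pot L) y dir = σ y - σ (y - shift L)

omit [MeasurableSpace E] [BorelSpace E] in
lemma exists_tester [Nontrivial E] {ε : ℝ} (hε : 0 < ε) :
    Nonempty (Tester (E := E) ε) := by
  obtain ⟨a, ha⟩ := exists_ne (0 : E)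
  have han : 0 < ‖a‖ := norm_pos_iff.2 ha
  obtain ⟨l, -, hl⟩ := exists_dual_vector ℝ a han.ne'
  let ℓ : StrongDual ℝ E := ‖a‖⁻¹ • l
  have hℓa : ℓ a = 1 := by
    simp only [ℓ, ContinuousLinearMap.smul_apply, hl, smul_eq_mul]
    exact inv_mul_cancel₀ han.ne'
  let η : ℝ := ε / (2 * (1 + ‖a‖))
  have hη : 0 < η := by positivity
  let β : ContDiffBump (0 : ℝ) := ⟨η / 2, η, half_pos hη, half_lt_self hη⟩
  let γ : ContDiffBump (0 : E) := ⟨η / 2, η, half_pos hη, half_lt_self hη⟩
  let π : E →L[ℝ] E := ContinuousLinearMap.id ℝ E - ℓ.smulRight a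
  have hπa : π a = 0 := by simp [π, hℓa]
  let σ : E → ℝ := fun y => β (ℓ y) * γ (π y)
  have hdec : ∀ y, y = ℓ y • a + π y := fun y => by simp [π]
  let B : ℝ → ℝ := fun s => ∫ u in (0:ℝ)..s, β u
  have hB : ∀ s, HasDerivAt B (β s) s := fun s =>
    intervalIntegral.integral_hasDerivAt_right
      (β.continuous.intervalIntegrable _ _) (β.continuous.stronglyMeasurableAtFilter _ _)
      β.continuous.continuousAt
  have hBd : ContDiff ℝ 1 B := by
    rw [contDiff_one_iff_deriv]
    exact ⟨fun s => (hB s).differentiableAt, by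
      rw [show deriv B = β from funext fun s => (hB s).deriv]; exact β.continuous⟩
  let m : ℝ → ℝ := fun L => |L| / ‖a‖
  refine ⟨⟨σ, fun L => m L • a, fun L y => (B (ℓ y) - B (ℓ y - m L)) * γ (π y), a,
    ?_, ?_, ?_, ?_, ?_, ?_, ?_, ?_⟩⟩
  · exact (β.contDiff.comp ℓ.contDiff).mul (γ.contDiff.comp π.contDiff)
  · intro y hy
    by_contra h
    have h1 : β (ℓ y) ≠ 0 := fun h' => h (by simp [σ, h'])
    have h2 : γ (π y) ≠ 0 := fun h' => h (by simp [σ, h'])
    have h1' : |ℓ y| < η := by
      have := mem_support.2 h1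
      rw [β.support_eq] at this
      simpa [Real.norm_eq_abs] using this
    have h2' : ‖π y‖ < η := by
      have := mem_support.2 h2
      rw [γ.support_eq] at this
      simpa using this
    have h3 : ‖y‖ ≤ |ℓ y| * ‖a‖ + ‖π y‖ := by
      conv_lhs => rw [hdec y]
      refine le_trans (norm_add_le _ _) ?_
      rw [norm_smul, Real.norm_eq_abs]
    have h4 : η * (1 + ‖a‖) = ε / 2 := by simp only [η]; field_simp
    nlinarith [mul_le_mul_of_nonneg_right h1'.le han.le]
  · exact fun y => mul_nonneg β.nonneg γ.nonneg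
  · simp only [σ, map_zero]
    rw [β.one_of_mem_closedBall (mem_closedBall_self (half_pos hη).le),
      γ.one_of_mem_closedBall (mem_closedBall_self (half_pos hη).le)]
    norm_num
  · intro L
    rw [norm_smul, Real.norm_eq_abs, abs_of_nonneg (by positivity)]
    simp only [m]
    rw [div_mul_cancel₀ _ han.ne']
    exact le_abs_self L
  · intro L
    exact ((hBd.comp ℓ.contDiff).sub (hBd.comp (ℓ.contDiff.sub contDiff_const))).mul
      (γ.contDiff.comp π.contDiff)
  · intro L
    refine HasCompactSupport.of_support_subset_isCompact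
      (isCompact_closedBall (0 : E) ((m L + η) * ‖a‖ + η)) fun y hy => ?_
    rw [mem_support] at hy
    have h2 : γ (π y) ≠ 0 := fun h' => hy (by simp [h'])
    have h2' : ‖π y‖ < η := by
      have := mem_support.2 h2
      rw [γ.support_eq] at this
      simpa using this
    have hBdiff : ∫ u in (ℓ y - m L)..ℓ y, β u ≠ 0 := by
      intro h'
      apply hy
      have : B (ℓ y) - B (ℓ y - m L) = 0 := by
        simp only [B]
        rw [intervalIntegral.integral_interval_sub_left (β.continuous.intervalIntegrable _ _)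
          (β.continuous.intervalIntegrable _ _)]
        exact h'
      simp [this]
    have hex : ∃ u ∈ uIcc (ℓ y - m L) (ℓ y), β u ≠ 0 := by
      by_contra hne
      push Not at hne
      exact hBdiff (by
        rw [intervalIntegral.integral_congr (g := fun _ => (0:ℝ)) hne]
        simp)
    obtain ⟨u, hu, hu0⟩ := hex
    have hu' : |u| < η := by
      have := mem_support.2 hu0
      rw [β.support_eq] at this
      simpa [Real.norm_eq_abs] using this
    have hm : 0 ≤ m L := by positivity
    rw [uIcc_of_le (by linarith), mem_Icc] at hu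
    have hl : |ℓ y| ≤ m L + η := by
      rw [abs_le]
      constructor <;> linarith [abs_lt.1 hu']
    rw [mem_closedBall_zero_iff]
    conv_lhs => rw [hdec y]
    refine le_trans (norm_add_le _ _) ?_
    rw [norm_smul, Real.norm_eq_abs]
    nlinarith
  · intro L y
    have hℓ : HasFDerivAt (fun z => ℓ z) ℓ y := ℓ.hasFDerivAt
    have h1 := (hB (ℓ y)).comp_hasFDerivAt y hℓ
    have h2 := (hB (ℓ y - m L)).comp_hasFDerivAt y (hℓ.sub_const (m L))
    have h3 : HasFDerivAt (fun z => γ (π z)) ((fderiv ℝ γ (π y)).comp π) y :=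
      ((γ.contDiff.differentiable (n := 1) one_ne_zero) (π y)).hasFDerivAt.comp y π.hasFDerivAt
    have h4 := (h1.sub h2).mul h3
    simp only [Function.comp_def, Pi.sub_apply, Pi.mul_def] at h4
    rw [h4.fderiv]
    have hπm : π (y - m L • a) = π y := by simp [hπa]
    simp [σ, hπa, hℓa, hπm, map_sub]
    ring

lemma Tester.integral_pos {ε : ℝ} (T : Tester (E := E) ε) : 0 < ∫ y, T.σ y ∂μ := by
  refine Continuous.integral_pos_of_hasCompactSupport_nonneg_nonzero T.σ_diff.continuous ?_
    T.σ_nonneg T.σ_zero
  refine HasCompactSupport.of_support_subset_isCompact (isCompact_closedBall (0 : E) ε) ?_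
  intro y hy
  rw [mem_closedBall_zero_iff]
  by_contra h
  exact hy (T.σ_supp y (le_of_not_ge h))

lemma Tester.hasCompactSupport {ε : ℝ} (T : Tester (E := E) ε) : HasCompactSupport T.σ := by
  refine HasCompactSupport.of_support_subset_isCompact (isCompact_closedBall (0 : E) ε) ?_
  intro y hy
  rw [mem_closedBall_zero_iff]
  by_contra h
  exact hy (T.σ_supp y (le_of_not_ge h))

/-- Signed change of variables for `id` plus a compactly supported map. -/
theorem integral_tester_comp {ε : ℝ} (T : Tester (E := E) ε) {v : E → E} (hv : ContDiff ℝ 1 v)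
    (hs : HasCompactSupport v) :
    ∫ x, (T.σ (x + v x) * (ContinuousLinearMap.id ℝ E + fderiv ℝ v x).det - T.σ x) ∂μ = 0 := by
  classical
  obtain ⟨R, hR⟩ := hs.isBounded.subset_closedBall (0 : E)
  obtain ⟨B, hB⟩ := hs.exists_bound_of_continuous hv.continuous
  let L : ℝ := |R| + |B| + |ε| + 1
  let a := T.shift L
  have hvR : ∀ x, x ∉ closedBall (0 : E) R → v x = 0 := fun x hx =>
    image_eq_zero_of_notMem_tsupport fun h => hx (hR h)
  have hdR : ∀ x, x ∉ closedBall (0 : E) R → fderiv ℝ v x = 0 := fun x hx =>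
    image_eq_zero_of_notMem_tsupport fun h => hx (hR ((tsupport_fderiv_subset ℝ) h))
  let f : E → E := fun x => x + v x
  have hf : ContDiff ℝ 1 f := contDiff_id.add hv
  have hfd : ∀ x, fderiv ℝ f x = ContinuousLinearMap.id ℝ E + fderiv ℝ v x := fun x =>
    ((hasFDerivAt_id x).add (hv.differentiable one_ne_zero x).hasFDerivAt).fderiv
  have hP : ContDiff ℝ 1 (T.pot L) := T.pot_diff L
  let d := T.dir
  let w : E → E := fun x => v x + T.pot L (f x) • d
  have hw : ContDiff ℝ 1 w := hv.add ((hP.comp hf).smul contDiff_const)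
  have hws : HasCompactSupport w := by
    obtain ⟨R', hR'⟩ := (T.pot_supp L).isBounded.subset_closedBall (0 : E)
    refine HasCompactSupport.of_support_subset_isCompact
      (isCompact_closedBall (0 : E) (max R R')) ?_
    intro x hx
    by_contra hne
    have h1 : ¬ ‖x‖ ≤ max R R' := by simpa using hne
    have hxR : x ∉ closedBall (0 : E) R := fun h =>
      h1 (le_trans (by simpa using h) (le_max_left _ _))
    have hp : T.pot L x = 0 := image_eq_zero_of_notMem_tsupport fun h =>
      h1 (le_trans (by simpa using hR' h) (le_max_right _ _))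
    exact hx (by simp [w, f, hvR x hxR, hp])
  have hdet : ∀ x, (ContinuousLinearMap.id ℝ E + fderiv ℝ w x).det
      = (1 + (T.σ (f x) - T.σ (f x - a))) *
        (ContinuousLinearMap.id ℝ E + fderiv ℝ v x).det := by
    intro x
    have hc : HasFDerivAt (fun z => T.pot L (f z) • d)
        (((fderiv ℝ (T.pot L) (f x)).comp (fderiv ℝ f x)).smulRight d) x :=
      (((hP.differentiable one_ne_zero (f x)).hasFDerivAt.comp x
        (hf.differentiable one_ne_zero x).hasFDerivAt)).smul_const d
    have hw' : fderiv ℝ w x = fderiv ℝ v x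
        + ((fderiv ℝ (T.pot L) (f x)).comp (fderiv ℝ f x)).smulRight d :=
      (((hv.differentiable one_ne_zero x).hasFDerivAt).add hc).fderiv
    let G : E →L[ℝ] E := ContinuousLinearMap.id ℝ E
      + (fderiv ℝ (T.pot L) (f x)).smulRight d
    have hG : ContinuousLinearMap.id ℝ E + fderiv ℝ w x
        = G.comp (ContinuousLinearMap.id ℝ E + fderiv ℝ v x) := by
      ext z
      simp [hw', hfd, G, add_smul, smul_add]
      abel
    have hdetG : G.det = 1 + (T.σ (f x) - T.σ (f x - a)) := by
      let b := finBasis ℝ E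
      rw [ContinuousLinearMap.det, ← LinearMap.det_toMatrix b]
      have : LinearMap.toMatrix b b G.toLinearMap
          = 1 + Matrix.replicateCol Unit (fun i => b.repr d i)
            * Matrix.replicateRow Unit (fun j => fderiv ℝ (T.pot L) (f x) (b j)) := by
        ext i j
        by_cases h : i = j <;>
          simp [G, LinearMap.toMatrix_apply, Matrix.mul_apply, Matrix.one_apply, h,
            Finsupp.single_apply] <;> ring
      rw [this, Matrix.det_one_add_replicateCol_mul_replicateRow, dotProduct]
      congr 1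
      rw [← T.pot_deriv L (f x)]
      show _ = fderiv ℝ (T.pot L) (f x) d
      conv_rhs => rw [← b.sum_repr d, map_sum]
      simp [mul_comm, d]
    rw [hG, ← hdetG]
    exact LinearMap.det_comp _ _
  have h1 := integral_det_sub_one μ hw hws
  have h2 := integral_det_sub_one μ hv hs
  simp_rw [hdet] at h1
  have hcD : Continuous fun x => (ContinuousLinearMap.id ℝ E + fderiv ℝ v x).det :=
    ContinuousLinearMap.continuous_det.comp
      (continuous_const.add (hv.continuous_fderiv one_ne_zero))
  have hσ := T.σ_diff.continuous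
  have hcf := hf.continuous
  have hbig : ∀ y : E, ‖y‖ ≤ |R| + |B| → T.σ (y - a) = 0 := by
    intro y hy
    refine T.σ_supp _ ?_
    have hn : ‖a‖ ≤ ‖y - a‖ + ‖y‖ := by
      have := norm_le_norm_add_norm_sub y a
      linarith
    have := T.shift_big L
    have := le_abs_self ε
    linarith
  have hDout : ∀ x, x ∉ closedBall (0 : E) R →
      (ContinuousLinearMap.id ℝ E + fderiv ℝ v x).det = 1 := fun x hx => by
    simp [hdR x hx, ContinuousLinearMap.det]
  have hshift : ∀ x, T.σ (f x - a) * (ContinuousLinearMap.id ℝ E + fderiv ℝ v x).det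
      = T.σ (x - a) := by
    intro x
    by_cases hx : x ∈ closedBall (0 : E) R
    · have hxn : ‖x‖ ≤ |R| := le_trans (by simpa using hx) (le_abs_self R)
      rw [hbig (f x) ?_, hbig x (by linarith [abs_nonneg B]), zero_mul]
      refine le_trans (norm_add_le _ _) ?_
      linarith [hB x, le_abs_self B]
    · rw [hDout x hx, mul_one]
      simp [f, hvR x hx]
  have hsub : ∀ x, (1 + (T.σ (f x) - T.σ (f x - a))) *
      (ContinuousLinearMap.id ℝ E + fderiv ℝ v x).det - 1
      = ((ContinuousLinearMap.id ℝ E + fderiv ℝ v x).det - 1)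
        + ((T.σ (f x) * (ContinuousLinearMap.id ℝ E + fderiv ℝ v x).det - T.σ x)
        + (T.σ x - T.σ (x - a))) := fun x => by
    have := hshift x
    linear_combination -this
  have hint : ∀ g : E → ℝ, Continuous g → HasCompactSupport g → Integrable g μ :=
    fun g hg hgs => hg.integrable_of_hasCompactSupport hgs
  have hsc : HasCompactSupport fun x =>
      (ContinuousLinearMap.id ℝ E + fderiv ℝ v x).det - 1 :=
    HasCompactSupport.of_support_subset_isCompact (isCompact_closedBall (0 : E) R) fun x hx => by
      by_contra h; exact hx (by simp [hDout x h])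
  have hsc2 : HasCompactSupport fun x =>
      T.σ (f x) * (ContinuousLinearMap.id ℝ E + fderiv ℝ v x).det - T.σ x :=
    HasCompactSupport.of_support_subset_isCompact (isCompact_closedBall (0 : E) R) fun x hx => by
      by_contra h; exact hx (by simp [hDout x h, f, hvR x h])
  have i1 : Integrable T.σ μ := hint _ hσ T.hasCompactSupport
  have i2 : Integrable (fun x => T.σ (x - a)) μ := i1.comp_sub_right a
  simp_rw [hsub] at h1
  have i3 := hint _ (by fun_prop) hsc2
  have i4 : Integrable (fun x => T.σ x - T.σ (x - a)) μ := i1.sub i2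
  have i5 : Integrable (fun x =>
      T.σ (f x) * (ContinuousLinearMap.id ℝ E + fderiv ℝ v x).det - T.σ x
        + (T.σ x - T.σ (x - a))) μ := i3.add i4
  rw [integral_add (hint _ (by fun_prop) hsc) i5, integral_add i3 i4, h2, integral_sub i1 i2,
    integral_sub_right_eq_self, sub_self, add_zero, zero_add] at h1
  exact h1

/-- The signed change of variables integrand. -/
def jint (σ : E → ℝ) (f : E → E) (x : E) : ℝ := σ (f x) * jdet f x

omit [MeasurableSpace E] [BorelSpace E] in
lemma continuous_jint {σ : E → ℝ} (hσ : Continuous σ) {f : E → E} (hf : ContDiff ℝ 1 f) :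
    Continuous (jint σ f) :=
  (hσ.comp hf.continuous).mul (continuous_jdet hf)

/-- Changing a `C^1` map on a compact set does not change the signed integral. -/
theorem integral_jint_sub_eq_zero {ε : ℝ} (T : Tester (E := E) ε) {f g : E → E}
    (hf : ContDiff ℝ 1 f) (hg : ContDiff ℝ 1 g) {L : Set E} (hL : IsCompact L)
    (hfg : ∀ x ∉ L, f x = g x) :
    ∫ x, (jint T.σ f x - jint T.σ g x) ∂μ = 0 := by
  obtain ⟨R, hR⟩ := hL.isBounded.subset_ball (0 : E)
  let r : ℝ := max R 1
  have hr : 0 < r := lt_of_lt_of_le one_pos (le_max_right _ _)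
  let χ : ContDiffBump (0 : E) := ⟨r, r + 1, hr, by linarith⟩
  let cut : (E → E) → E → E := fun h x => χ x • (h x - x)
  have hcut : ∀ {h : E → E}, ContDiff ℝ 1 h → ContDiff ℝ 1 (cut h) := fun hh =>
    χ.contDiff.smul (hh.sub contDiff_id)
  have hcuts : ∀ h : E → E, HasCompactSupport (cut h) := fun h =>
    χ.hasCompactSupport.smul_right
  have e1 := integral_tester_comp μ T (hcut hf) (hcuts f)
  have e2 := integral_tester_comp μ T (hcut hg) (hcuts g)
  have hd : ∀ {h : E → E}, ContDiff ℝ 1 h → ∀ x,
      fderiv ℝ (fun z => z + cut h z) x = ContinuousLinearMap.id ℝ E + fderiv ℝ (cut h) x :=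
    fun hh x => ((hasFDerivAt_id x).add ((hcut hh).differentiable one_ne_zero x).hasFDerivAt).fderiv
  have hI : ∀ {h : E → E}, ContDiff ℝ 1 h → Integrable (fun x => T.σ (x + cut h x) *
      (ContinuousLinearMap.id ℝ E + fderiv ℝ (cut h) x).det - T.σ x) μ := by
    intro h hh
    have hσ := T.σ_diff.continuous
    have hc := (hcut hh).continuous
    have hdc : Continuous fun x => (ContinuousLinearMap.id ℝ E + fderiv ℝ (cut h) x).det :=
      ContinuousLinearMap.continuous_det.comp
        (continuous_const.add ((hcut hh).continuous_fderiv one_ne_zero))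
    refine Continuous.integrable_of_hasCompactSupport (by fun_prop) ?_
    refine HasCompactSupport.of_support_subset_isCompact (hcuts h) fun x hx => ?_
    by_contra hne
    have h1 : cut h x = 0 := image_eq_zero_of_notMem_tsupport hne
    have h2 : fderiv ℝ (cut h) x = 0 :=
      image_eq_zero_of_notMem_tsupport fun h' => hne ((tsupport_fderiv_subset ℝ) h')
    exact hx (by simp [h1, h2, ContinuousLinearMap.det])
  have e3 := congrArg₂ (fun a b : ℝ => a - b) e1 e2
  simp only [sub_zero] at e3
  rw [← integral_sub (hI hf) (hI hg)] at e3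
  refine (integral_congr_ae (Eventually.of_forall fun x => ?_)).trans e3
  beta_reduce
  by_cases hx : x ∈ L
  · have hball : ball (0 : E) r ∈ 𝓝 x :=
      isOpen_ball.mem_nhds (ball_subset_ball (le_max_left _ _) (hR hx))
    have hh : ∀ {h : E → E}, ContDiff ℝ 1 h →
        jint T.σ h x = T.σ (x + cut h x) *
          (ContinuousLinearMap.id ℝ E + fderiv ℝ (cut h) x).det := by
      intro h hhd
      have hev : (fun z => z + cut h z) =ᶠ[𝓝 x] h := by
        filter_upwards [hball] with z hz
        simp [cut, χ.one_of_mem_closedBall (ball_subset_closedBall hz)]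
      have hxv := hev.eq_of_nhds
      rw [jint, jdet, ← hev.fderiv_eq, hd hhd, ← hxv]
    rw [hh hf, hh hg]
    ring
  · have hev : f =ᶠ[𝓝 x] g := by
      filter_upwards [hL.isClosed.isOpen_compl.mem_nhds hx] with z hz using hfg z hz
    have hev' : cut f =ᶠ[𝓝 x] cut g := by
      filter_upwards [hev] with z hz
      simp [cut, hz]
    have h1 : jint T.σ f x = jint T.σ g x := by
      rw [jint, jint, jdet, jdet, hev.fderiv_eq, hev.eq_of_nhds]
    rw [h1, hev'.eq_of_nhds, hev'.fderiv_eq]
    ring

end Vale.Agent.P228
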