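import Vale.Agent.P228.Deg.Maps

/-!
Versions of the degree lemmas for maps continuous on a closed set, and maps on a disk given
in polar coordinates.
-/

noncomputable section

open Set Filter MeasureTheory Metric Function Module
open scoped Topology NNReal

namespace Vale.Agent.P228

lemma exists_ext {A : Type*} [TopologicalSpace A] [NormalSpace A] {Y : Type*}
    [NormedAddCommGroup Y] [NormedSpace ℝ Y] [FiniteDimensional ℝ Y] {K : Set A} (hK : IsClosed K)
    {f : A → Y} (hf : ContinuousOn f K) : ∃ g : A → Y, Continuous g ∧ EqOn g f K := by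
  let b := (Module.finBasis ℝ Y).equivFunL
  obtain ⟨g, hg⟩ := ContinuousMap.exists_restrict_eq (Y := Fin (finrank ℝ Y) → ℝ) hK
    ⟨fun x => b (f x.1), b.continuous.comp hf.domRestrict⟩
  refine ⟨fun x => b.symm (g x), b.symm.continuous.comp g.continuous, fun x hx => ?_⟩
  have := congr(($hg) ⟨x, hx⟩)
  simp only [ContinuousMap.restrict_apply, ContinuousMap.coe_mk] at this
  simp [this]

section

variable {E : Type*} [NormedAddCommGroup E] [NormedSpace ℝ E] [FiniteDimensional ℝ E]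

lemma isApprox_congr {f g : E → E} {Ω : Set E} (h : EqOn f g (frontier Ω)) (q : E) :
    IsApprox f Ω q = IsApprox g Ω q := by
  funext u w
  simp only [IsApprox]
  refine propext (and_congr_right fun _ => and_congr_right fun _ => forall₂_congr fun x hx => ?_)
  rw [h hx]

lemma degree_congr_frontier {f g : E → E} {Ω : Set E} (h : EqOn f g (frontier Ω)) (q : E) :
    degree f Ω q = degree g Ω q := by
  classical
  simp only [degree, isApprox_congr h q]

variable [Nontrivial E] {Ω : Set E} (hΩ : IsOpen Ω) (hΩb : Bornology.IsBounded Ω) {q : E}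
include hΩ hΩb

theorem degree_homotopy_on {F : ℝ → E → E}
    (hF : ContinuousOn (fun z : ℝ × E => F z.1 z.2) (Icc 0 1 ×ˢ frontier Ω))
    (h : ∀ s ∈ Icc (0 : ℝ) 1, ∀ x ∈ frontier Ω, F s x ≠ q) :
    degree (F 0) Ω q = degree (F 1) Ω q := by
  obtain ⟨G, hG, hGF⟩ := exists_ext (isClosed_Icc.prod isClosed_frontier) hF
  have h0 : EqOn (F 0) (fun x => G (0, x)) (frontier Ω) := fun x hx =>
    (hGF (x := ((0 : ℝ), x)) ⟨by simp, hx⟩).symm
  have h1 : EqOn (F 1) (fun x => G (1, x)) (frontier Ω) := fun x hx =>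
    (hGF (x := ((1 : ℝ), x)) ⟨by simp, hx⟩).symm
  rw [degree_congr_frontier h0 q, degree_congr_frontier h1 q]
  exact degree_homotopy hΩ hΩb (F := fun s x => G (s, x)) hG fun s hs x hx => by
    rw [hGF (x := (s, x)) ⟨hs, hx⟩]; exact h s hs x hx

theorem degree_congr_on {f g : E → E} (hf : ContinuousOn f (frontier Ω))
    (hg : ContinuousOn g (frontier Ω))
    (h : ∀ x ∈ frontier Ω, ∀ s ∈ Icc (0 : ℝ) 1, (1 - s) • f x + s • g x ≠ q) :
    degree f Ω q = degree g Ω q := by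
  obtain ⟨f', hf', hff⟩ := exists_ext isClosed_frontier hf
  obtain ⟨g', hg', hgg⟩ := exists_ext isClosed_frontier hg
  rw [degree_congr_frontier hff.symm q, degree_congr_frontier hgg.symm q]
  exact degree_congr hΩ hΩb hf' hg' fun x hx s hs => by
    rw [hff hx, hgg hx]; exact h x hx s hs

theorem degree_eq_zero_on {f : E → E} (hf : ContinuousOn f (closure Ω))
    (h : ∀ x ∈ closure Ω, f x ≠ q) : degree f Ω q = 0 := by
  obtain ⟨f', hf', hff⟩ := exists_ext isClosed_closure hf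
  rw [degree_congr_frontier (hff.mono frontier_subset_closure).symm q]
  exact degree_eq_zero hΩ hΩb hf' fun x hx => by rw [hff hx]; exact h x hx

theorem degree_union_on {Ω₁ Ω₂ : Set E} (h₁ : IsOpen Ω₁) (h₂ : IsOpen Ω₂) (hs₁ : Ω₁ ⊆ Ω)
    (hs₂ : Ω₂ ⊆ Ω) (hd : Disjoint Ω₁ Ω₂) {f : E → E} (hf : ContinuousOn f (closure Ω))
    (h : ∀ x ∈ closure Ω, x ∉ Ω₁ ∪ Ω₂ → f x ≠ q) :
    degree f Ω q = degree f Ω₁ q + degree f Ω₂ q := by
  obtain ⟨f', hf', hff⟩ := exists_ext isClosed_closure hf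
  rw [degree_congr_frontier (hff.mono frontier_subset_closure).symm q,
    degree_congr_frontier ((hff.mono (frontier_subset_closure.trans (closure_mono hs₁))).symm) q,
    degree_congr_frontier ((hff.mono (frontier_subset_closure.trans (closure_mono hs₂))).symm) q]
  exact degree_union hΩ hΩb h₁ h₂ hs₁ hs₂ hd hf' fun x hx hx' => by
    rw [hff hx]; exact h x hx hx'

end

section

variable {X : Type*} [NormedAddCommGroup X] [NormedSpace ℝ X] [FiniteDimensional ℝ X]
  [Nontrivial X]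

theorem degree_prod_on {φ : X → X} {k : X × ℂ → ℂ} {V : Set X} (hV : IsOpen V)
    (hVb : Bornology.IsBounded V) {y : X} (a : ℂ) {r : ℝ} (hr : 0 < r)
    (hφ : ContinuousOn φ (closure V)) (hk : ContinuousOn k (closure V ×ˢ closedBall a r))
    (hφb : ∀ x ∈ frontier V, φ x ≠ y)
    (hkne : ∀ x ∈ closure V, ∀ z ∈ closedBall a r, φ x = y → k (x, z) ≠ 0) :
    degree (fun u : X × ℂ => (φ u.1, (u.2 - a) * k u)) (V ×ˢ ball a r) (y, 0)
      = degree φ V y := by
  obtain ⟨φ', hφ', hφφ⟩ := exists_ext isClosed_closure hφ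
  obtain ⟨k', hk', hkk⟩ := exists_ext (isClosed_closure.prod isClosed_closedBall) hk
  rw [degree_congr_frontier (g := fun u : X × ℂ => (φ' u.1, (u.2 - a) * k' u)) ?_,
    degree_congr_frontier (hφφ.mono frontier_subset_closure).symm y]
  · refine degree_prod hφ' hk' hV hVb a hr (fun x hx => ?_) fun x hx z hz => ?_
    · rw [hφφ (frontier_subset_closure hx)]; exact hφb x hx
    · rw [hφφ hx, hkk ⟨hx, hz⟩]; exact hkne x hx z hz
  · intro u hu
    have hu' := frontier_subset_closure hu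
    rw [closure_prod_eq, closure_ball a hr.ne'] at hu'
    simp [hφφ hu'.1, hkk hu']

theorem degree_pre_on {f : X × ℂ → X × ℂ} {V : Set X} (hV : IsOpen V)
    (hVb : Bornology.IsBounded V) {q : X × ℂ} {N : ℕ} (hN : N ≠ 0)
    (hf : ContinuousOn f (closure V ×ˢ closedBall (0 : ℂ) 1))
    (hfb : ∀ u ∈ frontier (V ×ˢ ball (0 : ℂ) 1), f u ≠ q) :
    degree (fun u => f (u.1, u.2 ^ N)) (V ×ˢ ball (0 : ℂ) 1) q
      = N * degree f (V ×ˢ ball (0 : ℂ) 1) q := by
  obtain ⟨f', hf', hff⟩ := exists_ext (isClosed_closure.prod isClosed_closedBall) hf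
  have hsub : frontier (V ×ˢ ball (0 : ℂ) 1) ⊆ closure V ×ˢ closedBall (0 : ℂ) 1 := by
    refine frontier_subset_closure.trans ?_
    rw [closure_prod_eq, closure_ball _ one_ne_zero]
  have hP : ∀ u ∈ frontier (V ×ˢ ball (0 : ℂ) 1),
      (u.1, u.2 ^ N) ∈ closure V ×ˢ closedBall (0 : ℂ) 1 := fun u hu => by
    refine ⟨(hsub hu).1, mem_closedBall_zero_iff.2 ?_⟩
    rw [norm_pow]
    exact pow_le_one₀ (norm_nonneg _) (mem_closedBall_zero_iff.1 (hsub hu).2)
  rw [degree_congr_frontier (g := fun u => f' (u.1, u.2 ^ N)) (fun u hu => (hff (hP u hu)).symm),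
    degree_congr_frontier (hff.mono hsub).symm q]
  exact degree_pre hf' hV hVb hN fun u hu => by rw [hff (hsub hu)]; exact hfb u hu

theorem degree_post_on {f : X × ℂ → X × ℂ} {Ω : Set (X × ℂ)} (hΩ : IsOpen Ω)
    (hΩb : Bornology.IsBounded Ω) {y : X} {c : ℂ} (hc : c ≠ 0) {p : ℕ} (hp : p ≠ 0)
    (hf : ContinuousOn f (frontier Ω)) (hfb : ∀ u ∈ frontier Ω, f u ≠ (y, 0)) :
    degree (fun u => ((f u).1, c * (f u).2 ^ p)) Ω (y, 0) = p * degree f Ω (y, 0) := by
  obtain ⟨f', hf', hff⟩ := exists_ext isClosed_frontier hf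
  rw [degree_congr_frontier (g := fun u => ((f' u).1, c * (f' u).2 ^ p))
    (fun u hu => by simp [hff hu]), degree_congr_frontier hff.symm]
  exact degree_post hf' hΩ hΩb hc hp fun u hu => by rw [hff hu]; exact hfb u hu

end

/-- The polar angle, normalised to `[0,1)`. -/
def turn (z : ℂ) : ℝ := Int.fract (Complex.arg z / (2 * Real.pi))

/-- The point of modulus `r` and normalised angle `t`. -/
def polar (r t : ℝ) : ℂ := r * Complex.exp (2 * Real.pi * t * Complex.I)

lemma turn_mem (z : ℂ) : turn z ∈ Icc (0 : ℝ) 1 :=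
  ⟨Int.fract_nonneg _, (Int.fract_lt_one _).le⟩

lemma norm_exp_turn (t : ℝ) : ‖Complex.exp (2 * Real.pi * t * Complex.I)‖ = 1 := by
  rw [Complex.norm_exp]
  simp

lemma norm_polar {r : ℝ} (hr : 0 ≤ r) (t : ℝ) : ‖polar r t‖ = r := by
  rw [polar, norm_mul, norm_exp_turn, Complex.norm_real, Real.norm_eq_abs, abs_of_nonneg hr,
    mul_one]

lemma polar_turn (z : ℂ) : polar ‖z‖ (turn z) = z := by
  have h : Complex.exp (2 * Real.pi * turn z * Complex.I)
      = Complex.exp (Complex.arg z * Complex.I) := by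
    rw [Complex.exp_eq_exp_iff_exists_int]
    refine ⟨-⌊Complex.arg z / (2 * Real.pi)⌋, ?_⟩
    simp only [turn, Int.fract]
    push_cast
    field_simp
    ring
  rw [polar, h, Complex.norm_mul_exp_arg_mul_I]

lemma polar_eq_polar {r t s : ℝ} (hr : 0 < r) (ht : t ∈ Icc (0 : ℝ) 1) (hs : s ∈ Ico (0 : ℝ) 1)
    (h : polar r t = polar r s) : t = s ∨ (t = 1 ∧ s = 0) := by
  rw [polar, polar, mul_right_inj' (by exact_mod_cast hr.ne'),
    Complex.exp_eq_exp_iff_exists_int] at h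
  obtain ⟨k, hk⟩ := h
  have hk' : t = s + k := by
    have h1 := congrArg Complex.im hk
    simp at h1
    have hpi := Real.pi_pos
    have : 2 * Real.pi * t = 2 * Real.pi * (s + k) := by linarith
    exact mul_left_cancel₀ (by positivity) this
  have h0 : -1 < (k : ℝ) := by linarith [ht.1, hs.2]
  have h2 : (k : ℝ) ≤ 1 := by linarith [ht.2, hs.1]
  have : k = 0 ∨ k = 1 := by
    have a : -1 < k := by exact_mod_cast h0
    have b : k ≤ 1 := by exact_mod_cast h2
    omega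
  rcases this with rfl | rfl
  · left; simpa using hk'
  · right
    push_cast at hk'
    constructor <;> linarith [ht.2, hs.1]

/-- Compatibility of a function given in polar coordinates. -/
def PolarCompat {A Y : Type*} (f : A → ℝ → ℝ → Y) (S : Set A) : Prop :=
  (∀ x ∈ S, ∀ r ∈ Icc (0 : ℝ) 1, f x r 0 = f x r 1) ∧
    ∀ x ∈ S, ∀ t ∈ Icc (0 : ℝ) 1, f x 0 t = f x 0 0

lemma polar_apply {A Y : Type*} {f : A → ℝ → ℝ → Y} {S : Set A} (hf : PolarCompat f S) {x : A}
    (hx : x ∈ S) {r t : ℝ} (hr : r ∈ Icc (0 : ℝ) 1) (ht : t ∈ Icc (0 : ℝ) 1) :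
    f x ‖polar r t‖ (turn (polar r t)) = f x r t := by
  rw [norm_polar hr.1]
  rcases hr.1.eq_or_lt with rfl | hpos
  · rw [hf.2 x hx _ (turn_mem _), hf.2 x hx t ht]
  · have h := polar_turn (polar r t)
    rw [norm_polar hr.1] at h
    rcases polar_eq_polar hpos ht ⟨Int.fract_nonneg _, Int.fract_lt_one _⟩ h.symm with h' | ⟨h1, h0⟩
    · exact congrArg (f x r) h'.symm
    · show f x r (turn (polar r t)) = f x r t
      rw [show turn (polar r t) = 0 from h0, h1, hf.1 x hx r hr]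

/-- A compatible function in polar coordinates is continuous on the disk. -/
theorem continuousOn_polar {A Y : Type*} [TopologicalSpace A] [T2Space A] [TopologicalSpace Y]
    {f : A → ℝ → ℝ → Y} {S : Set A} (hS : IsCompact S)
    (hc : ContinuousOn (fun u : A × ℝ × ℝ => f u.1 u.2.1 u.2.2)
      (S ×ˢ Icc (0 : ℝ) 1 ×ˢ Icc (0 : ℝ) 1))
    (hf : PolarCompat f S) :
    ContinuousOn (fun u : A × ℂ => f u.1 ‖u.2‖ (turn u.2)) (S ×ˢ closedBall (0 : ℂ) 1) := by
  set K := S ×ˢ Icc (0 : ℝ) 1 ×ˢ Icc (0 : ℝ) 1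
  have hK : IsCompact K := hS.prod (isCompact_Icc.prod isCompact_Icc)
  let π : A × ℝ × ℝ → A × ℂ := fun u => (u.1, polar u.2.1 u.2.2)
  have hπ : Continuous π := by unfold π polar; fun_prop
  have himg : S ×ˢ closedBall (0 : ℂ) 1 ⊆ π '' K := fun u hu =>
    ⟨(u.1, ‖u.2‖, turn u.2), ⟨hu.1, ⟨norm_nonneg _, mem_closedBall_zero_iff.1 hu.2⟩, turn_mem _⟩,
      by simp [π, polar_turn]⟩
  rw [continuousOn_iff_isClosed]
  intro t ht
  obtain ⟨u, hu, hue⟩ := continuousOn_iff_isClosed.1 hc t ht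
  refine ⟨π '' (u ∩ K), ((hK.inter_left hu).image hπ).isClosed, ?_⟩
  ext z
  constructor
  · rintro ⟨hz, hzS⟩
    obtain ⟨w, hw, hwz⟩ := himg hzS
    refine ⟨⟨w, ⟨?_, hw⟩, hwz⟩, hzS⟩
    have hwt : w ∈ (fun u : A × ℝ × ℝ => f u.1 u.2.1 u.2.2) ⁻¹' t ∩ K := by
      refine ⟨?_, hw⟩
      show f w.1 w.2.1 w.2.2 ∈ t
      rw [← polar_apply hf hw.1 hw.2.1 hw.2.2]
      rw [← hwz] at hz
      exact hz
    rw [hue] at hwt
    exact hwt.1
  · rintro ⟨⟨w, hw, rfl⟩, hzS⟩
    refine ⟨?_, hzS⟩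
    have hwt : w ∈ (fun u : A × ℝ × ℝ => f u.1 u.2.1 u.2.2) ⁻¹' t ∩ K := by rw [hue]; exact hw
    show f w.1 ‖polar w.2.1 w.2.2‖ (turn (polar w.2.1 w.2.2)) ∈ t
    rw [polar_apply hf hw.2.1 hw.2.2.1 hw.2.2.2]
    exact hwt.1

end Vale.Agent.P228
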