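import Vale.Agent.P228.Deg.Deg

/-!
Degree formulas for three kinds of maps of `X × ℂ`: products with a linear factor,
precomposition with a power of the complex coordinate, and postcomposition with one.
-/

noncomputable section

open Set Filter MeasureTheory Metric Function Module
open scoped Topology NNReal

namespace Vale.Agent.P228

variable {X : Type*} [NormedAddCommGroup X] [NormedSpace ℝ X] [FiniteDimensional ℝ X]
  [Nontrivial X]

/-- Multiplication by a complex number, as a real linear map. -/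
def cmul (c : ℂ) : ℂ →L[ℝ] ℂ := ContinuousLinearMap.mul ℝ ℂ c

lemma det_cmul (c : ℂ) :
    LinearMap.det ((cmul c : ℂ →L[ℝ] ℂ) : ℂ →ₗ[ℝ] ℂ) = Complex.normSq c := by
  rw [← Algebra.norm_complex_apply, Algebra.norm_apply]
  rfl

omit [Nontrivial X] in
lemma det_prodMap' (A : X →L[ℝ] X) (B : ℂ →L[ℝ] ℂ) :
    (A.prodMap B).det = A.det * B.det :=
  LinearMap.det_prodMap _ _

lemma hasFDerivAt_pow_complex (p : ℕ) (w : ℂ) :
    HasFDerivAt (fun v : ℂ => v ^ p) (cmul ((p : ℂ) * w ^ (p - 1))) w := by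
  have h := ((hasDerivAt_pow p w).hasFDerivAt).restrictScalars ℝ
  refine h.congr_fderiv ?_
  ext v <;> simp [cmul, mul_comm]

omit [Nontrivial X] in
/-- The Jacobian after postcomposition with a power map. -/
lemma jdet_post {f : X × ℂ → X × ℂ} (hf : Differentiable ℝ f) (c : ℂ) (p : ℕ) (z : X × ℂ) :
    jdet (fun u => ((f u).1, c * (f u).2 ^ p)) z
      = Complex.normSq (c * ((p : ℂ) * (f z).2 ^ (p - 1))) * jdet f z := by
  have hQ : HasFDerivAt (fun v : X × ℂ => (v.1, c * v.2 ^ p))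
      ((ContinuousLinearMap.id ℝ X).prodMap (cmul (c * ((p : ℂ) * (f z).2 ^ (p - 1))))) (f z) := by
    have h2 : HasFDerivAt (fun v : ℂ => c * v ^ p)
        (cmul (c * ((p : ℂ) * (f z).2 ^ (p - 1)))) (f z).2 := by
      refine ((hasFDerivAt_pow_complex p (f z).2).const_mul c).congr_fderiv ?_
      ext v <;> simp [cmul, mul_assoc]
    exact HasFDerivAt.prodMap (f z) (hasFDerivAt_id _) h2
  have h := hQ.comp z (hf z).hasFDerivAt
  rw [jdet, show fderiv ℝ (fun u => ((f u).1, c * (f u).2 ^ p)) z = _ from h.fderiv, jdet]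
  rw [ContinuousLinearMap.det, ContinuousLinearMap.toLinearMap_comp, LinearMap.det_comp]
  congr 1
  refine (det_prodMap' (ContinuousLinearMap.id ℝ X) _).trans ?_
  simp [ContinuousLinearMap.det, det_cmul]

omit [Nontrivial X] in
/-- The Jacobian after precomposition with a power map. -/
lemma jdet_pre {f : X × ℂ → X × ℂ} (hf : Differentiable ℝ f) (N : ℕ) (z : X × ℂ) :
    jdet (fun u => f (u.1, u.2 ^ N)) z
      = Complex.normSq ((N : ℂ) * z.2 ^ (N - 1)) * jdet f (z.1, z.2 ^ N) := by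
  have hP : HasFDerivAt (fun v : X × ℂ => (v.1, v.2 ^ N))
      ((ContinuousLinearMap.id ℝ X).prodMap (cmul ((N : ℂ) * z.2 ^ (N - 1)))) z :=
    HasFDerivAt.prodMap z (hasFDerivAt_id _) (hasFDerivAt_pow_complex N z.2)
  have h := (hf (z.1, z.2 ^ N)).hasFDerivAt.comp z hP
  rw [jdet, show fderiv ℝ (fun u => f (u.1, u.2 ^ N)) z = _ from h.fderiv, jdet]
  rw [ContinuousLinearMap.det, ContinuousLinearMap.toLinearMap_comp, LinearMap.det_comp,
    mul_comm]
  congr 1
  refine (det_prodMap' (ContinuousLinearMap.id ℝ X) _).trans ?_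
  simp [ContinuousLinearMap.det, det_cmul]

omit [Nontrivial X] in
lemma jdet_prod {f : X → X} {k : X × ℂ → ℂ} (hf : Differentiable ℝ f) (hk : Differentiable ℝ k)
    (a : ℂ) (x : X) :
    jdet (fun u : X × ℂ => (f u.1, (u.2 - a) * k u)) (x, a)
      = jdet f x * Complex.normSq (k (x, a)) := by
  have h1 : HasFDerivAt (fun u : X × ℂ => f u.1)
      ((fderiv ℝ f x).comp (ContinuousLinearMap.fst ℝ X ℂ)) (x, a) :=
    (hf x).hasFDerivAt.comp (x, a) hasFDerivAt_fst
  have h2 := ((hasFDerivAt_snd (𝕜 := ℝ) (p := (x, a))).sub_const a).mul (hk (x, a)).hasFDerivAt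
  have h3 : HasFDerivAt (fun u : X × ℂ => (f u.1, (u.2 - a) * k u))
      ((fderiv ℝ f x).prodMap (cmul (k (x, a)))) (x, a) := by
    refine (h1.prodMk h2).congr_fderiv ?_
    ext v <;> simp [cmul]
  rw [jdet, h3.fderiv, det_prodMap']
  simp [jdet, ContinuousLinearMap.det, det_cmul]

lemma sign_mul_normSq {c : ℂ} (hc : c ≠ 0) (d : ℝ) :
    SignType.sign (Complex.normSq c * d) = SignType.sign d := by
  rw [sign_mul, sign_pos (Complex.normSq_pos.2 hc), one_mul]

/-- The degree of a product with a nondegenerate linear factor. -/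
theorem degree_prod {φ : X → X} (hφ : Continuous φ) {k : X × ℂ → ℂ} (hk : Continuous k)
    {V : Set X} (hV : IsOpen V) (hVb : Bornology.IsBounded V) {y : X} (a : ℂ) {r : ℝ} (hr : 0 < r)
    (hφb : ∀ x ∈ frontier V, φ x ≠ y)
    (hkne : ∀ x ∈ closure V, ∀ z ∈ closedBall a r, φ x = y → k (x, z) ≠ 0) :
    degree (fun u : X × ℂ => (φ u.1, (u.2 - a) * k u)) (V ×ˢ ball a r) (y, 0)
      = degree φ V y := by
  borelize X
  have hΩ : IsOpen (V ×ˢ ball a r) := hV.prod isOpen_ball
  have hΩb : Bornology.IsBounded (V ×ˢ ball a r) := hVb.prod isBounded_ball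
  have hcl : closure (V ×ˢ ball a r) = closure V ×ˢ closedBall a r := by
    rw [closure_prod_eq, closure_ball a hr.ne']
  have hG : Continuous fun u : X × ℂ => (φ u.1, (u.2 - a) * k u) := by fun_prop
  have hGb : ∀ u ∈ frontier (V ×ˢ ball a r), (φ u.1, (u.2 - a) * k u) ≠ (y, 0) := by
    rintro ⟨x, z⟩ hu he
    have hu' := frontier_subset_closure hu
    rw [hcl] at hu'
    simp only [Prod.mk.injEq, mul_eq_zero, sub_eq_zero] at he
    obtain ⟨h1, h2 | h2⟩ := he
    · have hxV : x ∈ V := mem_of_notMem_frontier hV hu'.1 fun hf => hφb x hf h1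
      exact hu.2 (by rw [hΩ.interior_eq]; exact ⟨hxV, by simpa [h2] using hr⟩)
    · exact hkne x hu'.1 z hu'.2 h1 h2
  obtain ⟨r0, hr0, hr0b⟩ := exists_norm_lower_bound (frontier_isCompact hΩb) hG.continuousOn hGb
  obtain ⟨r1, hr1, hr1b⟩ := exists_norm_lower_bound (frontier_isCompact hVb) hφ.continuousOn hφb
  obtain ⟨r2, hr2, hr2b⟩ := exists_norm_lower_bound
    (hVb.isCompact_closure.prod (isCompact_closedBall a r))
    (f := fun u : X × ℂ => (φ u.1, k u)) (q := (y, 0)) (by fun_prop) fun u hu he => by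
      simp only [Prod.mk.injEq] at he
      exact hkne u.1 hu.1 u.2 hu.2 he.1 he.2
  let δ := min (r2 / 4) (min (r1 / 4) (r0 / (4 * (1 + r))))
  have hδ : 0 < δ := by positivity
  obtain ⟨f, y', hf, hfr, -, hy', hfφ⟩ :=
    exists_approx (Measure.addHaar : Measure X) hφ V y hδ (measure_empty)
  obtain ⟨k', hk', hkk, -⟩ := hk.exists_contDiff_approx 1 continuous_const fun _ => hδ
  have hkk' : ∀ u, ‖k' u - k u‖ < δ := fun u => by simpa [dist_eq_norm] using hkk u
  let g : X × ℂ → X × ℂ := fun u => (f u.1, (u.2 - a) * k' u)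
  have hg : ContDiff ℝ 1 g := by fun_prop
  have hδr2 : δ ≤ r2 / 4 := min_le_left _ _
  have hδr0 : δ * (4 * (1 + r)) ≤ r0 := by
    have : δ ≤ r0 / (4 * (1 + r)) := (min_le_right _ _).trans (min_le_right _ _)
    rwa [le_div_iff₀ (by positivity)] at this
  have hkey : ∀ u ∈ closure (V ×ˢ ball a r), g u = (y', 0) → u.2 = a ∧ k' u ≠ 0 := by
    rintro ⟨x, z⟩ hu he
    rw [hcl] at hu
    simp only [g, Prod.mk.injEq, mul_eq_zero, sub_eq_zero] at he
    have hne : k' (x, z) ≠ 0 := fun h0 => by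
      have h1 : ‖φ x - y‖ < r2 := by
        have h3 := norm_sub_le_norm_sub_add_norm_sub (φ x) (f x) y
        rw [he.1] at h3
        have h4 := hfφ x
        rw [he.1] at h4
        linarith [norm_sub_rev (φ x) y']
      have h2 : ‖k (x, z) - 0‖ < r2 := by
        have := hkk' (x, z)
        rw [h0, zero_sub, norm_neg] at this
        rw [sub_zero]; linarith
      have := hr2b (x, z) hu
      rw [Prod.norm_def] at this
      exact absurd this (not_le.2 (max_lt h1 h2))
    exact ⟨he.2.resolve_right hne, hne⟩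
  have happ : IsApprox (fun u : X × ℂ => (φ u.1, (u.2 - a) * k u)) (V ×ˢ ball a r) (y, 0)
      g (y', 0) := by
    refine ⟨hg, ?_, ?_⟩
    · rintro ⟨x, z⟩ hu he
      obtain ⟨h1, h2⟩ := hkey _ hu he
      obtain rfl : z = a := h1
      rw [hcl] at hu
      rw [jdet_prod (hf.differentiable one_ne_zero) (hk'.differentiable one_ne_zero)]
      exact mul_ne_zero (hfr x hu.1 (congrArg Prod.fst he)) (Complex.normSq_pos.2 h2).ne'
    · rintro ⟨x, z⟩ hu
      have hz : ‖z - a‖ ≤ r := by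
        have := frontier_subset_closure hu
        rw [hcl] at this
        simpa [dist_eq_norm] using this.2
      refine lt_of_lt_of_le ?_ (div_le_div_of_nonneg_right (hr0b _ hu) zero_le_two)
      have e1 : (g (x, z) - (y', 0)) - ((φ x, (z - a) * k (x, z)) - (y, 0))
          = ((f x - φ x) - (y' - y), (z - a) * (k' (x, z) - k (x, z))) := by
        simp only [g, Prod.mk_sub_mk, sub_zero, Prod.mk.injEq]
        constructor
        · abel
        · ring
      rw [e1, Prod.norm_def, max_lt_iff]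
      constructor
      · have := norm_sub_le (f x - φ x) (y' - y)
        simp only
        nlinarith [hfφ x]
      · simp only [norm_mul]
        have := mul_le_mul hz (hkk' (x, z)).le (norm_nonneg _) hr.le
        nlinarith
  rw [degree_eq hΩ hΩb hG.continuousOn happ,
    degree_eq hV hVb hφ.continuousOn (isApprox_of_close hf hfr (r := r1) (δ := δ)
      (by have : δ ≤ r1 / 4 := (min_le_right _ _).trans (min_le_left _ _)
          linarith) hr1b hy' fun x _ => hfφ x)]
  have hset : (V ×ˢ ball a r) ∩ g ⁻¹' {(y', 0)} = (fun x => (x, a)) '' (V ∩ f ⁻¹' {y'}) := by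
    ext ⟨x, z⟩
    constructor
    · rintro ⟨hu, he⟩
      obtain ⟨h1, -⟩ := hkey _ (subset_closure hu) he
      exact ⟨x, ⟨hu.1, (congrArg Prod.fst (he : g (x, z) = (y', 0)) : f x = y')⟩, by simp_all⟩
    · rintro ⟨x', ⟨hx, hxy⟩, he⟩
      simp only [Prod.mk.injEq] at he
      obtain ⟨rfl, rfl⟩ := he
      exact ⟨⟨hx, mem_ball_self hr⟩, by simpa [g] using hxy⟩
  rw [signSum, signSum, hset, finsum_mem_image (fun x _ x' _ h => congrArg Prod.fst h)]
  refine finsum_mem_congr rfl fun x hx => ?_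
  obtain ⟨-, hne⟩ := hkey (x, a) (by rw [hcl]; exact ⟨subset_closure hx.1, by simp [hr.le]⟩)
    (by simpa [g] using hx.2)
  rw [jdet_prod (hf.differentiable one_ne_zero) (hk'.differentiable one_ne_zero), mul_comm,
    sign_mul_normSq hne]

omit [Nontrivial X] in
lemma measure_slice_zero [MeasurableSpace X] [BorelSpace X] :
    (Measure.addHaar : Measure (X × ℂ)) {u | u.2 = 0} = 0 := by
  let S : Submodule ℝ (X × ℂ) := LinearMap.ker (LinearMap.snd ℝ X ℂ)
  have hS : S ≠ ⊤ := fun h => by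
    have : ((0 : X), (1 : ℂ)) ∈ S := by rw [h]; trivial
    simp [S] at this
  exact measure_mono_null (fun u hu => by simpa [S] using hu)
    (Measure.addHaar_submodule (Measure.addHaar : Measure (X × ℂ)) S hS)

/-- The roots of unity of order `N`. -/
def rootUnity (N : ℕ) : ℂ := Complex.exp (2 * Real.pi * Complex.I / N)

lemma exists_root {N : ℕ} (hN : N ≠ 0) (w : ℂ) : ∃ z : ℂ, z ^ N = w :=
  IsAlgClosed.exists_pow_nat_eq w (Nat.pos_of_ne_zero hN)

lemma root_of_pow_eq {N : ℕ} (hN : N ≠ 0) {z₀ z : ℂ} (hz : z₀ ≠ 0) (h : z ^ N = z₀ ^ N) :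
    ∃ i < N, z = z₀ * rootUnity N ^ i := by
  have hN' : NeZero N := ⟨hN⟩
  obtain ⟨i, hi, he⟩ := (Complex.isPrimitiveRoot_exp N hN).eq_pow_of_pow_eq_one
    (ξ := z / z₀) (by rw [div_pow, h, div_self (pow_ne_zero _ hz)])
  refine ⟨i, hi, ?_⟩
  rw [rootUnity, he, mul_div_cancel₀ _ hz]

lemma rootUnity_pow {N : ℕ} (hN : N ≠ 0) (i : ℕ) (z₀ : ℂ) :
    (z₀ * rootUnity N ^ i) ^ N = z₀ ^ N := by
  rw [mul_pow, ← pow_mul, mul_comm i N, pow_mul, rootUnity,
    (Complex.isPrimitiveRoot_exp N hN).pow_eq_one, one_pow, mul_one]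

lemma rootUnity_inj {N : ℕ} (hN : N ≠ 0) {i j : ℕ} (hi : i < N) (hj : j < N) {z₀ : ℂ}
    (hz : z₀ ≠ 0) (h : z₀ * rootUnity N ^ i = z₀ * rootUnity N ^ j) : i = j :=
  (Complex.isPrimitiveRoot_exp N hN).pow_inj hi hj (mul_left_cancel₀ hz h)

/-- Precomposition with a power map multiplies the degree. -/
theorem degree_pre {f : X × ℂ → X × ℂ} (hf : Continuous f) {V : Set X} (hV : IsOpen V)
    (hVb : Bornology.IsBounded V) {q : X × ℂ} {N : ℕ} (hN : N ≠ 0)
    (hfb : ∀ u ∈ frontier (V ×ˢ ball (0 : ℂ) 1), f u ≠ q) :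
    degree (fun u => f (u.1, u.2 ^ N)) (V ×ˢ ball (0 : ℂ) 1) q
      = N * degree f (V ×ˢ ball (0 : ℂ) 1) q := by
  classical
  borelize X
  set Ω := V ×ˢ ball (0 : ℂ) 1 with hΩdef
  have hΩ : IsOpen Ω := hV.prod isOpen_ball
  have hΩb : Bornology.IsBounded Ω := hVb.prod isBounded_ball
  have hlt : ∀ z : ℂ, ‖z ^ N‖ < 1 ↔ ‖z‖ < 1 := fun z => by
    rw [norm_pow, pow_lt_one_iff_of_nonneg (norm_nonneg _) hN]
  have hle : ∀ z : ℂ, ‖z ^ N‖ ≤ 1 ↔ ‖z‖ ≤ 1 := fun z => by
    rw [norm_pow, pow_le_one_iff_of_nonneg (norm_nonneg _) hN]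
  have hcl : closure Ω = closure V ×ˢ closedBall (0 : ℂ) 1 := by
    rw [hΩdef, closure_prod_eq, closure_ball _ one_ne_zero]
  have hPcl : ∀ u ∈ closure Ω, (u.1, u.2 ^ N) ∈ closure Ω := by
    intro u hu
    rw [hcl] at hu ⊢
    exact ⟨hu.1, mem_closedBall_zero_iff.2 ((hle _).2 (mem_closedBall_zero_iff.1 hu.2))⟩
  have hmem : ∀ u : X × ℂ, (u.1, u.2 ^ N) ∈ Ω ↔ u ∈ Ω := fun u => by
    simp only [hΩdef, mem_prod, mem_ball_zero_iff, hlt]
  have hPfr : ∀ u ∈ frontier Ω, (u.1, u.2 ^ N) ∈ frontier Ω := by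
    intro u hu
    refine ⟨hPcl u hu.1, ?_⟩
    rw [hΩ.interior_eq, hmem]
    simpa [hΩ.interior_eq] using hu.2
  obtain ⟨r, hr, hrb⟩ := exists_norm_lower_bound (frontier_isCompact hΩb) hf.continuousOn hfb
  obtain ⟨g₀, -, hg₀, -, -, -, hg₀f⟩ :=
    exists_approx (Measure.addHaar : Measure (X × ℂ)) hf Ω q (δ := r / 4) (by positivity)
      measure_empty
  have hNull : (Measure.addHaar : Measure (X × ℂ)) (g₀ '' {u | u.2 = 0}) = 0 :=
    addHaar_image_eq_zero_of_differentiableOn_of_addHaar_eq_zero _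
      (hg₀.differentiable one_ne_zero).differentiableOn measure_slice_zero
  obtain ⟨q', hq', hreg, hqN⟩ :=
    exists_regular_near (Measure.addHaar : Measure (X × ℂ)) hg₀ Ω q
      (δ := r / 4) (by positivity) hNull
  have hne0 : ∀ u, g₀ u = q' → u.2 ≠ 0 := fun u hu h0 => hqN ⟨u, h0, hu⟩
  have hd₀ := hg₀.differentiable one_ne_zero
  have hreg' : Regular (fun u => g₀ (u.1, u.2 ^ N)) Ω q' := by
    intro u hu he
    rw [jdet_pre hd₀]
    refine mul_ne_zero (Complex.normSq_pos.2 ?_).ne' (hreg _ (hPcl u hu) he)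
    refine mul_ne_zero (Nat.cast_ne_zero.2 hN) (pow_ne_zero _ fun h0 => hne0 _ he ?_)
    simp [h0, hN]
  rw [degree_eq (f := fun u : X × ℂ => f (u.1, u.2 ^ N)) hΩ hΩb (by fun_prop)
      (isApprox_of_close (by fun_prop) hreg' (r := r) (δ := r / 4) (by linarith)
        (fun u hu => hrb _ (hPfr u hu)) hq' fun u _ => hg₀f _),
    degree_eq hΩ hΩb hf.continuousOn (isApprox_of_close hg₀ hreg (r := r) (δ := r / 4)
      (by linarith) hrb hq' fun u _ => hg₀f u)]
  have hfin : (Ω ∩ g₀ ⁻¹' {q'}).Finite :=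
    (finite_preimage hg₀ hΩb hreg).subset (inter_subset_inter_left _ subset_closure)
  choose root hroot using fun w : ℂ => exists_root hN w
  let Φ : (X × ℂ) × ℕ → X × ℂ := fun t => (t.1.1, root t.1.2 * rootUnity N ^ t.2)
  have hΦ : ∀ t, ((Φ t).1, (Φ t).2 ^ N) = t.1 := fun t => by
    simp [Φ, rootUnity_pow hN, hroot]
  have hmemf : ∀ u, u ∈ hfin.toFinset ↔ u ∈ Ω ∧ g₀ u = q' := fun u => by simp
  have hset : Ω ∩ (fun u => g₀ (u.1, u.2 ^ N)) ⁻¹' {q'}
      = ↑((hfin.toFinset ×ˢ Finset.range N).image Φ) := by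
    ext u
    simp only [mem_inter_iff, mem_preimage, mem_singleton_iff, Finset.coe_image, mem_image,
      Finset.coe_product, mem_prod, Finset.mem_coe, Finset.mem_range, hmemf]
    constructor
    · rintro ⟨hu, he⟩
      have hw : u.2 ^ N ≠ 0 := hne0 _ he
      have hz : root (u.2 ^ N) ≠ 0 := fun h0 => hw (by rw [← hroot (u.2 ^ N), h0, zero_pow hN])
      obtain ⟨i, hi, hie⟩ := root_of_pow_eq hN hz (z := u.2) (hroot (u.2 ^ N)).symm
      exact ⟨((u.1, u.2 ^ N), i), ⟨⟨(hmem u).2 hu, he⟩, hi⟩, by simp [Φ, ← hie]⟩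
    · rintro ⟨t, ⟨⟨h1, h2⟩, -⟩, rfl⟩
      rw [← hΦ t] at h1 h2
      exact ⟨(hmem _).1 h1, h2⟩
  rw [signSum, signSum, hset, finsum_mem_coe_finset, finsum_mem_eq_finite_toFinset_sum _ hfin,
    Finset.sum_image, Finset.sum_product, Finset.mul_sum]
  · refine Finset.sum_congr rfl fun w hw => ?_
    have hw' := (hmemf w).1 hw
    rw [Finset.sum_congr rfl fun i _ => ?_, Finset.sum_const, Finset.card_range, nsmul_eq_mul]
    congr 1
    rw [jdet_pre hd₀, hΦ, sign_mul_normSq]
    refine mul_ne_zero (Nat.cast_ne_zero.2 hN) (pow_ne_zero _ fun h0 => hne0 w hw'.2 ?_)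
    have := congrArg Prod.snd (hΦ (w, i))
    simp only [h0, zero_pow hN] at this
    exact this.symm
  · rintro ⟨w, i⟩ hwi ⟨w', i'⟩ hwi' he
    simp only [Finset.coe_product, mem_prod, Finset.mem_coe, Finset.mem_range, hmemf] at hwi hwi'
    obtain rfl : w = w' := by
      have h1 := hΦ (w, i)
      rw [he, hΦ] at h1
      exact h1.symm
    have hz : root w.2 ≠ 0 := fun h0 =>
      hne0 w hwi.1.2 (by rw [← hroot w.2, h0, zero_pow hN])
    simp only [Φ, Prod.mk.injEq] at he
    exact Prod.ext rfl (rootUnity_inj hN hwi.2 hwi'.2 hz he.2)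

/-- Postcomposition with a power map multiplies the degree. -/
theorem degree_post {f : X × ℂ → X × ℂ} (hf : Continuous f) {Ω : Set (X × ℂ)} (hΩ : IsOpen Ω)
    (hΩb : Bornology.IsBounded Ω) {y : X} {c : ℂ} (hc : c ≠ 0) {p : ℕ} (hp : p ≠ 0)
    (hfb : ∀ u ∈ frontier Ω, f u ≠ (y, 0)) :
    degree (fun u => ((f u).1, c * (f u).2 ^ p)) Ω (y, 0) = p * degree f Ω (y, 0) := by
  classical
  borelize X
  let Q : X × ℂ → X × ℂ := fun v => (v.1, c * v.2 ^ p)
  have hQ : Continuous Q := by fun_prop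
  have hQf : ∀ u ∈ frontier Ω, Q (f u) ≠ (y, 0) := by
    intro u hu he
    simp only [Q, Prod.mk.injEq, mul_eq_zero, hc, false_or, pow_eq_zero_iff hp] at he
    exact hfb u hu (Prod.ext he.1 he.2)
  obtain ⟨r, hr, hrb⟩ := exists_norm_lower_bound (frontier_isCompact hΩb) hf.continuousOn hfb
  obtain ⟨r', hr', hrb'⟩ :=
    exists_norm_lower_bound (frontier_isCompact hΩb) (hQ.comp hf).continuousOn hQf
  obtain ⟨R, hR⟩ := ((frontier_isCompact hΩb).image hf).isBounded.subset_closedBall (0 : X × ℂ)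
  obtain ⟨η, hη, hQu⟩ := Metric.uniformContinuousOn_iff.1
    ((isCompact_closedBall (0 : X × ℂ) (R + r)).uniformContinuousOn_of_continuous hQ.continuousOn)
    (r' / 8) (by positivity)
  let δ := min (r / 4) η
  have hδ : 0 < δ := by positivity
  obtain ⟨g, -, hg, -, -, -, hgf⟩ :=
    exists_approx (Measure.addHaar : Measure (X × ℂ)) hf Ω (y, 0) hδ measure_empty
  have hcQ : ContinuousAt (fun v : X × ℂ => c * v.2 ^ p) (y, 0) := by fun_prop
  obtain ⟨η', hη', hcQ'⟩ := Metric.continuousAt_iff.1 hcQ (r' / 8) (by positivity)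
  let δ' := min δ (min η' (r' / 8))
  let Crit : Set (X × ℂ) := g '' {u | jdet g u = 0}
  have hcrit : (Measure.addHaar : Measure (X × ℂ)) Crit = 0 :=
    addHaar_image_eq_zero_of_det_fderivWithin_eq_zero _
      (fun u _ => (hg.differentiable one_ne_zero u).hasFDerivAt.hasFDerivWithinAt) fun u hu => hu
  let rot : ℕ → X × ℂ → X × ℂ := fun i v => (v.1, v.2 * rootUnity p ^ i)
  let Bad : Set (X × ℂ) := {v | v.2 = 0} ∪ ⋃ i : ℕ, rot i ⁻¹' Crit
  have hBad : (Measure.addHaar : Measure (X × ℂ)) Bad = 0 := by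
    refine measure_union_null measure_slice_zero (measure_iUnion_null fun i => ?_)
    have hw : rootUnity p ^ i ≠ 0 := pow_ne_zero _ (Complex.exp_ne_zero _)
    have himg : rot i ⁻¹' Crit ⊆
        (fun v : X × ℂ => (v.1, v.2 * (rootUnity p ^ i)⁻¹)) '' Crit := fun v hv =>
      ⟨rot i v, hv, by simp [rot, mul_assoc, hw]⟩
    refine measure_mono_null himg
      (addHaar_image_eq_zero_of_differentiableOn_of_addHaar_eq_zero _ ?_ hcrit)
    exact (by fun_prop : Differentiable ℝ fun v : X × ℂ =>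
      (v.1, v.2 * (rootUnity p ^ i)⁻¹)).differentiableOn
  obtain ⟨v, hv, hvBad⟩ : ∃ v, ‖v - (y, 0)‖ < δ' ∧ v ∉ Bad := by
    by_contra hne
    push Not at hne
    have hsub : ball (y, (0 : ℂ)) δ' ⊆ Bad := fun v hv =>
      hne v (by simpa [dist_eq_norm] using hv)
    exact (measure_ball_pos Measure.addHaar (y, (0 : ℂ)) (by positivity : 0 < δ')).ne'
      (measure_mono_null hsub hBad)
  have hv0 : v.2 ≠ 0 := fun h => hvBad (Or.inl h)
  have hregi : ∀ i, Regular g Ω (rot i v) := fun i x _ hx h0 =>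
    hvBad (Or.inr (mem_iUnion.2 ⟨i, x, h0, hx⟩))
  have hclose : ∀ i, ‖rot i v - (y, 0)‖ < δ := by
    intro i
    have hn : ‖rootUnity p ^ i‖ = 1 := by
      rw [norm_pow, rootUnity, Complex.norm_exp]
      simp [Complex.div_re, Complex.mul_re, Complex.mul_im]
    refine lt_of_le_of_lt ?_ (hv.trans_le (min_le_left _ _))
    simp only [rot, Prod.norm_def, Prod.fst_sub, Prod.snd_sub, sub_zero, norm_mul, hn, mul_one]
    exact le_rfl
  have hgd := hg.differentiable one_ne_zero
  have hregQ : Regular (fun u => ((g u).1, c * (g u).2 ^ p)) Ω (v.1, c * v.2 ^ p) := by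
    intro u hu he
    simp only [Prod.mk.injEq, mul_right_inj' hc] at he
    obtain ⟨i, -, hie⟩ := root_of_pow_eq hp hv0 he.2
    rw [jdet_post hgd]
    refine mul_ne_zero (Complex.normSq_pos.2 (mul_ne_zero hc (mul_ne_zero (Nat.cast_ne_zero.2 hp)
      (pow_ne_zero _ ?_)))).ne' (hregi i u hu (Prod.ext he.1 hie))
    rw [hie]
    exact mul_ne_zero hv0 (pow_ne_zero _ (Complex.exp_ne_zero _))
  have happ : IsApprox (fun u => ((f u).1, c * (f u).2 ^ p)) Ω (y, 0)
      (fun u => ((g u).1, c * (g u).2 ^ p)) (v.1, c * v.2 ^ p) := by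
    refine isApprox_of_close (by fun_prop) hregQ (r := r') (δ := r' / 4) (by linarith)
      (fun u hu => hrb' u hu) ?_ fun u hu => ?_
    · rw [Prod.norm_def, max_lt_iff]
      constructor
      · have h1 : ‖v - (y, 0)‖ < r' / 8 :=
          hv.trans_le ((min_le_right _ _).trans (min_le_right _ _))
        have h2 := (norm_fst_le (v - (y, (0:ℂ))))
        simp only [Prod.fst_sub] at h2 ⊢
        linarith
      · have := hcQ' (x := v) (by
          rw [dist_eq_norm]; exact hv.trans_le ((min_le_right _ _).trans (min_le_left _ _)))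
        rw [dist_eq_norm] at this
        simp only [Prod.snd_sub, zero_pow hp, mul_zero, sub_zero] at this ⊢
        linarith
    · have hfu : ‖f u‖ ≤ R := by simpa using hR (mem_image_of_mem f hu)
      have hgu := hgf u
      have := hQu (g u) (mem_closedBall_zero_iff.2 (by
          have := norm_le_norm_add_norm_sub' (g u) (f u)
          have : δ ≤ r / 4 := min_le_left _ _
          linarith)) (f u) (mem_closedBall_zero_iff.2 (by linarith))
        (by rw [dist_eq_norm]; exact hgu.trans_le (min_le_right _ _))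
      rw [dist_eq_norm] at this
      simp only [Q] at this
      exact lt_of_lt_of_le this (by linarith)
  rw [degree_eq (f := fun u => ((f u).1, c * (f u).2 ^ p)) hΩ hΩb (by fun_prop) happ]
  have hdi : ∀ i, degree f Ω (y, 0) = signSum g Ω (rot i v) := fun i =>
    degree_eq hΩ hΩb hf.continuousOn (isApprox_of_close hg (hregi i) (r := r) (δ := δ)
      (by have : δ ≤ r / 4 := min_le_left _ _
          linarith) hrb (hclose i) fun u _ => hgf u)
  have hfin : ∀ i, (Ω ∩ g ⁻¹' {rot i v}).Finite := fun i =>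
    (finite_preimage hg hΩb (hregi i)).subset (inter_subset_inter_left _ subset_closure)
  have hset : Ω ∩ (fun u => ((g u).1, c * (g u).2 ^ p)) ⁻¹' {(v.1, c * v.2 ^ p)}
      = ⋃ i ∈ (Finset.range p : Set ℕ), Ω ∩ g ⁻¹' {rot i v} := by
    ext u
    simp only [mem_inter_iff, mem_preimage, mem_singleton_iff, mem_iUnion, Finset.mem_coe,
      Finset.mem_range, Prod.mk.injEq, mul_right_inj' hc]
    constructor
    · rintro ⟨hu, h1, h2⟩
      obtain ⟨i, hi, hie⟩ := root_of_pow_eq hp hv0 h2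
      exact ⟨i, hi, hu, Prod.ext h1 hie⟩
    · rintro ⟨i, -, hu, he⟩
      exact ⟨hu, by simp [he, rot], by simp [he, rot, rootUnity_pow hp]⟩
  rw [signSum, hset, finsum_mem_biUnion, finsum_mem_coe_finset]
  · rw [Finset.sum_congr rfl fun i _ => ?_, Finset.sum_const, Finset.card_range, nsmul_eq_mul]
    rw [hdi i, signSum]
    refine finsum_mem_congr rfl fun u hu => ?_
    have hgu : g u = rot i v := hu.2
    rw [jdet_post hgd, sign_mul_normSq]
    refine mul_ne_zero hc (mul_ne_zero (Nat.cast_ne_zero.2 hp) (pow_ne_zero _ ?_))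
    rw [hgu]
    exact mul_ne_zero hv0 (pow_ne_zero _ (Complex.exp_ne_zero _))
  · intro i hi j hj hij
    refine disjoint_left.2 fun u hu hu' => hij ?_
    have he : rot i v = rot j v := (hu.2 : g u = _).symm.trans hu'.2
    exact rootUnity_inj hp (Finset.mem_range.1 hi) (Finset.mem_range.1 hj) hv0
      (congrArg Prod.snd he)
  · exact Finset.finite_toSet _
  · exact fun i _ => hfin i

end Vale.Agent.P228
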